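import Vale.Agent.P022.H443.Tame

/-!
# Residually trivial representations and 2-group quotients of `G_ℚ`

`r : G_ℚ → GL₂(E)` continuous, `|tr r(g)| < 1`, `|det r(g) - 1| < 1` for all `g`. For every `ε` there
is an open normal subgroup `N` with a 2-group as quotient such that `r` is constant up to `ε` on the
cosets of `N`.
-/

open NumberField Matrix Filter Topology

set_option linter.unusedSectionVars false

noncomputable section

namespace Vale.Agent.P022.H443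

section

variable {E : Type*} [NontriviallyNormedField E] [NormedAlgebra ℚ_[2] E] [IsUltrametricDist E]

lemma norm_two_E : ‖(2 : E)‖ = 1 / 2 := by
  have h1 : ‖algebraMap ℚ_[2] E 2‖ = ‖(2 : ℚ_[2])‖ := norm_algebraMap' E 2
  rw [map_ofNat] at h1
  rw [h1]
  have h3 := Padic.norm_p (p := 2)
  rw [Nat.cast_ofNat] at h3
  rw [h3]; norm_num

lemma norm_add_le_of {a b : E} {c : ℝ} (ha : ‖a‖ ≤ c) (hb : ‖b‖ ≤ c) : ‖a + b‖ ≤ c :=
  (IsUltrametricDist.norm_add_le_max a b).trans (max_le ha hb)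

lemma norm_sub_le_of {a b : E} {c : ℝ} (ha : ‖a‖ ≤ c) (hb : ‖b‖ ≤ c) : ‖a - b‖ ≤ c := by
  rw [sub_eq_add_neg]
  exact norm_add_le_of ha (by rwa [norm_neg])

/-- the two scalar sequences -/
lemma scalar_bounds {s : ℝ} (hs : s < 1) (hs2 : 1 / 2 ≤ s) (t d : ℕ → E)
    (ht0 : ‖t 0 - 2‖ ≤ s) (hd0 : ‖d 0 - 1‖ ≤ s)
    (ht : ∀ k, t (k + 1) = t k ^ 2 - 2 * d k) (hd : ∀ k, d (k + 1) = d k ^ 2) (k : ℕ) :
    ‖t k - 2‖ ≤ s ^ (k + 1) ∧ ‖d k - 1‖ ≤ s ^ (k + 1) := by
  have hs0 : 0 ≤ s := by linarith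
  have h2 : ‖(2 : E)‖ ≤ s := by rw [norm_two_E]; exact hs2
  have h4 : ‖(4 : E)‖ ≤ s := by
    have : (4 : E) = 2 * 2 := by norm_num
    rw [this, norm_mul]
    calc ‖(2 : E)‖ * ‖(2 : E)‖ ≤ s * 1 := by
          apply mul_le_mul h2 _ (norm_nonneg _) hs0
          rw [norm_two_E]; norm_num
      _ = s := mul_one s
  induction k with
  | zero => simpa using ⟨ht0, hd0⟩
  | succ k ih =>
    obtain ⟨h1, h3⟩ := ih
    have hk : s ^ (k + 1) ≤ s := by
      calc s ^ (k + 1) = s ^ k * s := pow_succ s k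
        _ ≤ 1 * s := by
            apply mul_le_mul_of_nonneg_right (pow_le_one₀ hs0 hs.le) hs0
        _ = s := one_mul s
    have hk0 : 0 ≤ s ^ (k + 1) := pow_nonneg hs0 _
    constructor
    · have e : t (k + 1) - 2 = (t k - 2) * ((t k - 2) + 4) - 2 * (d k - 1) := by
        rw [ht]; ring
      rw [e, pow_succ s (k + 1)]
      refine norm_sub_le_of ?_ ?_
      · rw [norm_mul]
        exact mul_le_mul h1 (norm_add_le_of (h1.trans hk) h4) (norm_nonneg _) hk0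
      · rw [norm_mul, mul_comm]
        exact mul_le_mul h3 h2 (norm_nonneg _) hk0
    · have e : d (k + 1) - 1 = (d k - 1) * ((d k - 1) + 2) := by
        rw [hd]; ring
      rw [e, pow_succ s (k + 1), norm_mul]
      exact mul_le_mul h3 (norm_add_le_of (h3.trans hk) h2) (norm_nonneg _) hk0

lemma det_sq2 (A : Matrix (Fin 2) (Fin 2) E) : (A * A).det = A.det ^ 2 := by
  rw [det_mul, pow_two]

lemma trace_sq2 (A : Matrix (Fin 2) (Fin 2) E) : (A * A).trace = A.trace ^ 2 - 2 * A.det := by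
  rw [det_fin_two, trace_fin_two, trace_fin_two, mul_apply, mul_apply, Fin.sum_univ_two,
    Fin.sum_univ_two]
  ring

/-- Cayley-Hamilton, entrywise -/
lemma sq_sub_one (A : Matrix (Fin 2) (Fin 2) E) (i j : Fin 2) :
    (A * A - 1) i j = A.trace * (A - 1) i j + (A.trace - A.det - 1) * (1 : Matrix (Fin 2) (Fin 2) E) i j := by
  rw [det_fin_two, trace_fin_two]
  fin_cases i <;> fin_cases j <;>
    simp [mul_apply, Fin.sum_univ_two] <;> ring

/-- **`A^(2^k) → 1`** -/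
theorem pow_two_bound {A : Matrix (Fin 2) (Fin 2) E} (ht : ‖A.trace‖ < 1) (hd : ‖A.det - 1‖ < 1) :
    ∃ s C : ℝ, 0 ≤ s ∧ s < 1 ∧ ∀ k : ℕ, ∀ i j, ‖(A ^ (2 ^ k) - 1 : Matrix (Fin 2) (Fin 2) E) i j‖ ≤ C * s ^ k := by
  set s : ℝ := max (max ‖A.trace‖ ‖A.det - 1‖) (1 / 2) with hs
  have hs1 : s < 1 := by
    rw [hs]; exact max_lt (max_lt ht hd) (by norm_num)
  have hs2 : 1 / 2 ≤ s := le_max_right _ _
  have hs0 : 0 ≤ s := by linarith
  have h2 : ‖(2 : E)‖ ≤ s := by rw [norm_two_E]; exact hs2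
  have htr : ‖A.trace‖ ≤ s := (le_max_left _ _).trans (le_max_left _ _)
  have hdt : ‖A.det - 1‖ ≤ s := (le_max_right _ _).trans (le_max_left _ _)
  have hpow : ∀ k : ℕ, A ^ (2 ^ (k + 1)) = A ^ (2 ^ k) * A ^ (2 ^ k) := by
    intro k; rw [← pow_add]; congr 1; ring
  have hb := scalar_bounds hs1 hs2 (fun k => (A ^ (2 ^ k)).trace) (fun k => (A ^ (2 ^ k)).det)
    (by simpa using norm_sub_le_of htr h2) (by simpa using hdt)
    (fun k => by simp only [hpow, trace_sq2]) (fun k => by simp only [hpow, det_sq2])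
  obtain ⟨C, hC1, hC⟩ : ∃ C : ℝ, 1 ≤ C ∧ ∀ i j, ‖(A - 1) i j‖ ≤ C := by
    refine ⟨1 + ∑ i, ∑ j, ‖(A - 1) i j‖, ?_, fun i j => ?_⟩
    · have : 0 ≤ ∑ i, ∑ j, ‖(A - 1) i j‖ :=
        Finset.sum_nonneg fun i _ => Finset.sum_nonneg fun j _ => norm_nonneg _
      linarith
    · have h1 : ‖(A - 1) i j‖ ≤ ∑ j, ‖(A - 1) i j‖ :=
        Finset.single_le_sum (f := fun j => ‖(A - 1) i j‖) (fun j _ => norm_nonneg _)
          (Finset.mem_univ j)
      have h3 : ∑ j, ‖(A - 1) i j‖ ≤ ∑ i, ∑ j, ‖(A - 1) i j‖ :=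
        Finset.single_le_sum (f := fun i => ∑ j, ‖(A - 1) i j‖)
          (fun i _ => Finset.sum_nonneg fun j _ => norm_nonneg _) (Finset.mem_univ i)
      linarith
  refine ⟨s, C, hs0, hs1, fun k => ?_⟩
  induction k with
  | zero => intro i j; simpa using hC i j
  | succ k ih =>
    intro i j
    rw [hpow, sq_sub_one]
    obtain ⟨hb1, hb2⟩ := hb k
    have hk : s ^ (k + 1) ≤ s := by
      calc s ^ (k + 1) = s ^ k * s := pow_succ s k
        _ ≤ 1 * s := mul_le_mul_of_nonneg_right (pow_le_one₀ hs0 hs1.le) hs0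
        _ = s := one_mul s
    have hT : ‖(A ^ (2 ^ k)).trace‖ ≤ s := by
      have e : (A ^ (2 ^ k)).trace = ((A ^ (2 ^ k)).trace - 2) + 2 := by ring
      rw [e]
      exact norm_add_le_of (hb1.trans hk) h2
    have hW : ‖(A ^ (2 ^ k)).trace - (A ^ (2 ^ k)).det - 1‖ ≤ s ^ (k + 1) := by
      have e : (A ^ (2 ^ k)).trace - (A ^ (2 ^ k)).det - 1
          = ((A ^ (2 ^ k)).trace - 2) - ((A ^ (2 ^ k)).det - 1) := by ring
      rw [e]
      exact norm_sub_le_of hb1 hb2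
    refine norm_add_le_of ?_ ?_
    · rw [norm_mul, pow_succ, ← mul_assoc, mul_comm]
      exact mul_le_mul (ih i j) hT (norm_nonneg _) (by positivity)
    · rw [norm_mul]
      have h1 : ‖(1 : Matrix (Fin 2) (Fin 2) E) i j‖ ≤ 1 := by
        rw [Matrix.one_apply]; split <;> simp
      calc _ ≤ s ^ (k + 1) * 1 := mul_le_mul hW h1 (norm_nonneg _) (by positivity)
        _ = 1 * s ^ (k + 1) := by ring
        _ ≤ C * s ^ (k + 1) := mul_le_mul_of_nonneg_right hC1 (by positivity)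

lemma exists_small {A : Matrix (Fin 2) (Fin 2) E} (ht : ‖A.trace‖ < 1) (hd : ‖A.det - 1‖ < 1)
    {ε : ℝ} (hε : 0 < ε) : ∃ k₀ : ℕ, ∀ k ≥ k₀, ∀ i j, ‖(A ^ (2 ^ k) - 1 : Matrix (Fin 2) (Fin 2) E) i j‖ < ε := by
  obtain ⟨s, C, hs0, hs1, h⟩ := pow_two_bound ht hd
  have hlim : Tendsto (fun k : ℕ => C * s ^ k) atTop (𝓝 0) := by
    simpa using (tendsto_pow_atTop_nhds_zero_of_lt_one hs0 hs1).const_mul C
  obtain ⟨k₀, hk₀⟩ := Filter.eventually_atTop.1 (hlim.eventually (gt_mem_nhds hε))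
  exact ⟨k₀, fun k hk i j => (h k i j).trans_lt (hk₀ k hk)⟩

lemma close_mul {A B : Matrix (Fin 2) (Fin 2) E} {ε : ℝ} (h1 : ε ≤ 1)
    (hA : ∀ i j, ‖(A - 1) i j‖ ≤ ε) (hB : ∀ i j, ‖(B - 1) i j‖ ≤ ε) (i j : Fin 2) :
    ‖(A * B - 1) i j‖ ≤ ε := by
  have h0 : 0 ≤ ε := (norm_nonneg _).trans (hA 0 0)
  have e : A * B - 1 = (A - 1) * (B - 1) + ((A - 1) + (B - 1)) := by noncomm_ring
  rw [e, Matrix.add_apply, Matrix.add_apply, Matrix.mul_apply, Fin.sum_univ_two]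
  have h : ∀ k, ‖(A - 1) i k * (B - 1) k j‖ ≤ ε := by
    intro k
    rw [norm_mul]
    calc _ ≤ ε * 1 := mul_le_mul (hA i k) ((hB k j).trans h1) (norm_nonneg _) h0
      _ = ε := mul_one ε
  exact norm_add_le_of (norm_add_le_of (h 0) (h 1)) (norm_add_le_of (hA i j) (hB i j))

/-- matrices close to 1 -/
def ballG (E : Type*) [NontriviallyNormedField E] [NormedAlgebra ℚ_[2] E] [IsUltrametricDist E]
    (ε : ℝ) (h0 : 0 ≤ ε) (h1 : ε ≤ 1) : Subgroup (GL (Fin 2) E) where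
  carrier := {A | (∀ i j, ‖((A : Matrix (Fin 2) (Fin 2) E) - 1) i j‖ ≤ ε) ∧
    ∀ i j, ‖(((A⁻¹ : GL (Fin 2) E) : Matrix (Fin 2) (Fin 2) E) - 1) i j‖ ≤ ε}
  mul_mem' {A B} hA hB := by
    constructor
    · intro i j
      rw [Units.val_mul]
      exact close_mul h1 hA.1 hB.1 i j
    · intro i j
      rw [_root_.mul_inv_rev, Units.val_mul]
      exact close_mul h1 hB.2 hA.2 i j
  one_mem' := by
    constructor <;> intro i j <;> simp [h0]
  inv_mem' {A} hA := by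
    refine ⟨hA.2, ?_⟩
    rw [inv_inv]
    exact hA.1

variable (r : GQ →* GL (Fin 2) E)

lemma cont_entry (hr : Continuous r) (i j : Fin 2) :
    Continuous fun g : GQ => (r g : Matrix (Fin 2) (Fin 2) E) i j := by
  have h1 : Continuous fun g : GQ => (r g : Matrix (Fin 2) (Fin 2) E) :=
    Units.continuous_val.comp hr
  exact h1.matrix_elem i j

lemma isOpen_comap_ball (hr : Continuous r) {ε : ℝ} (h0 : 0 < ε) (h1 : ε ≤ 1) :
    IsOpen (((ballG E ε h0.le h1).comap r : Subgroup GQ) : Set GQ) := by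
  apply Subgroup.isOpen_of_mem_nhds _ (g := (1 : GQ))
  have hev : ∀ i j, ∀ᶠ g in 𝓝 (1 : GQ), ‖((r g : Matrix (Fin 2) (Fin 2) E) - 1) i j‖ < ε := by
    intro i j
    have hc : Continuous fun g : GQ => ‖((r g : Matrix (Fin 2) (Fin 2) E) - 1) i j‖ := by
      simp only [Matrix.sub_apply]
      exact ((cont_entry r hr i j).sub continuous_const).norm
    have h2 := hc.tendsto 1
    have h3 : ‖((r 1 : Matrix (Fin 2) (Fin 2) E) - 1) i j‖ = 0 := by simp
    rw [h3] at h2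
    exact h2.eventually (gt_mem_nhds h0)
  have hev' : ∀ i j, ∀ᶠ g in 𝓝 (1 : GQ), ‖((r g⁻¹ : Matrix (Fin 2) (Fin 2) E) - 1) i j‖ < ε := by
    intro i j
    have h2 := (continuous_inv (G := GQ)).tendsto 1
    rw [inv_one] at h2
    exact h2.eventually (hev i j)
  have hall : ∀ᶠ g in 𝓝 (1 : GQ), (∀ i j, ‖((r g : Matrix (Fin 2) (Fin 2) E) - 1) i j‖ < ε) ∧
      ∀ i j, ‖((r g⁻¹ : Matrix (Fin 2) (Fin 2) E) - 1) i j‖ < ε := by
    refine Filter.Eventually.and ?_ ?_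
    · exact Filter.eventually_all.2 fun i => Filter.eventually_all.2 fun j => hev i j
    · exact Filter.eventually_all.2 fun i => Filter.eventually_all.2 fun j => hev' i j
  filter_upwards [hall] with g hg
  refine ⟨fun i j => (hg.1 i j).le, fun i j => ?_⟩
  rw [← map_inv]
  exact (hg.2 i j).le

/-- **the kernel modulo `ε`** -/
theorem two_core (hr : Continuous r) (ht : ∀ g, ‖(r g : Matrix (Fin 2) (Fin 2) E).trace‖ < 1)
    (hd : ∀ g, ‖(r g : Matrix (Fin 2) (Fin 2) E).det - 1‖ < 1) {ε : ℝ} (h0 : 0 < ε) (h1 : ε ≤ 1) :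
    Two ((ballG E ε h0.le h1).comap r).normalCore := by
  have := galQb
  set B : Subgroup GQ := (ballG E ε h0.le h1).comap r with hB
  have hBo : IsOpen (B : Set GQ) := isOpen_comap_ball r hr h0 h1
  obtain ⟨W, hW⟩ := ProfiniteGrp.exist_openNormalSubgroup_sub_open_nhds_of_one hBo B.one_mem
  have hWc : W.toSubgroup ≤ B.normalCore := Subgroup.normal_le_normalCore.2 hW
  have hNo : IsOpen (B.normalCore : Set GQ) := Subgroup.isOpen_mono hWc W.isOpen'
  refine ⟨inferInstance, hNo, fun g => ?_⟩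
  set C : Subgroup GQ := B.normalCore with hC
  have hCB : C ≤ B := Subgroup.normalCore_le B
  have hfq : Finite (GQ ⧸ C) := Subgroup.quotient_finite_of_isOpen C hNo
  -- `g ^ m ∈ C`, `m = 2 ^ a * b`, `b` odd
  have hm : g ^ Nat.card (GQ ⧸ C) ∈ C := by
    rw [← QuotientGroup.eq_one_iff]
    change ((g : GQ ⧸ C)) ^ Nat.card (GQ ⧸ C) = 1
    exact pow_card_eq_one'
  obtain ⟨a, b, hb, hab⟩ := Nat.exists_eq_two_pow_mul_odd (n := Nat.card (GQ ⧸ C))
    Nat.card_pos.ne'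
  refine ⟨a, ?_⟩
  set h : GQ := g ^ 2 ^ a with hh
  have hhb : h ^ b ∈ C := by
    rw [hh, ← pow_mul, ← hab]; exact hm
  -- all conjugates of `h` are in `B`
  intro x
  set y : GQ := x * h * x⁻¹ with hy
  obtain ⟨k1, hk1⟩ := exists_small (ht y) (hd y) h0
  obtain ⟨k2, hk2⟩ := exists_small (ht y⁻¹) (hd y⁻¹) h0
  set k : ℕ := (k1 + k2) * Nat.totient b with hk
  have htot : 0 < Nat.totient b := Nat.totient_pos.2 hb.pos
  have hk1' : k1 ≤ k := by rw [hk]; nlinarith [Nat.zero_le k1, Nat.zero_le k2]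
  have hk2' : k2 ≤ k := by rw [hk]; nlinarith [Nat.zero_le k1, Nat.zero_le k2]
  have hyB : y ^ 2 ^ k ∈ B := by
    refine ⟨fun i j => ?_, fun i j => ?_⟩
    · rw [map_pow, Units.val_pow_eq_pow_val]
      exact (hk1 k hk1' i j).le
    · rw [← map_inv, ← inv_pow, map_pow, Units.val_pow_eq_pow_val]
      exact (hk2 k hk2' i j).le
  -- `b ∣ 2 ^ k - 1`
  have hmod : 2 ^ k ≡ 1 [MOD b] := by
    rw [hk, mul_comm, pow_mul]
    have := (Nat.ModEq.pow_totient ((Nat.coprime_two_left).2 hb)).pow (k1 + k2)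
    rwa [one_pow] at this
  obtain ⟨q, hq⟩ : ∃ q, 2 ^ k = 1 + b * q := by
    have h2 : b ∣ 2 ^ k - 1 := (Nat.modEq_iff_dvd' Nat.one_le_two_pow).1 hmod.symm
    obtain ⟨q, hq⟩ := h2
    exact ⟨q, by have := Nat.one_le_two_pow (n := k); omega⟩
  have hcq : x * h ^ (b * q) * x⁻¹ ∈ C := by
    have hn : C.Normal := inferInstance
    apply hn.conj_mem
    rw [pow_mul]; exact C.pow_mem hhb q
  have e : y ^ 2 ^ k = y * (x * h ^ (b * q) * x⁻¹) := by
    rw [hq, pow_add, pow_one, hy, conj_pow]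
  have e2 : y = y ^ 2 ^ k * (x * h ^ (b * q) * x⁻¹)⁻¹ := by
    rw [e, mul_inv_cancel_right]
  rw [e2]
  exact B.mul_mem hyB (B.inv_mem (hCB hcq))

/-- **residually trivial `r`: approximation by 2-group quotients** -/
theorem exists_two (hr : Continuous r)
    (ht : ∀ g, ‖(r g : Matrix (Fin 2) (Fin 2) E).trace‖ < 1)
    (hd : ∀ g, ‖(r g : Matrix (Fin 2) (Fin 2) E).det - 1‖ < 1) {ε : ℝ} (h0 : 0 < ε) :
    ∃ N : Subgroup GQ, Two N ∧ ∀ g : GQ, ∀ h ∈ N, ∀ i j,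
      ‖(r (g * h) : Matrix (Fin 2) (Fin 2) E) i j - (r g : Matrix (Fin 2) (Fin 2) E) i j‖ < ε := by
  have := galQb
  -- the entries are bounded
  have hbd : ∀ i j, ∃ C : ℝ, ∀ g, ‖(r g : Matrix (Fin 2) (Fin 2) E) i j‖ ≤ C := by
    intro i j
    obtain ⟨C, hC⟩ := (isCompact_univ (X := GQ)).exists_bound_of_continuousOn
      (cont_entry r hr i j).continuousOn
    exact ⟨C, fun g => hC g trivial⟩
  choose C hC using hbd
  set D : ℝ := 1 + ∑ i, ∑ j, |C i j| with hD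
  have hD1 : 1 ≤ D := by
    have : 0 ≤ ∑ i, ∑ j, |C i j| :=
      Finset.sum_nonneg fun i _ => Finset.sum_nonneg fun j _ => abs_nonneg _
    linarith
  have hDb : ∀ i j g, ‖(r g : Matrix (Fin 2) (Fin 2) E) i j‖ ≤ D := by
    intro i j g
    have h1 : |C i j| ≤ ∑ j, |C i j| :=
      Finset.single_le_sum (f := fun j => |C i j|) (fun j _ => abs_nonneg _) (Finset.mem_univ j)
    have h3 : ∑ j, |C i j| ≤ ∑ i, ∑ j, |C i j| :=
      Finset.single_le_sum (f := fun i => ∑ j, |C i j|)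
        (fun i _ => Finset.sum_nonneg fun j _ => abs_nonneg _) (Finset.mem_univ i)
    have h4 := hC i j g
    have h5 := le_abs_self (C i j)
    linarith
  set δ : ℝ := min 1 (ε / (2 * D)) with hδ
  have hδ0 : 0 < δ := lt_min one_pos (by positivity)
  have hδ1 : δ ≤ 1 := min_le_left _ _
  have hδε : D * δ < ε := by
    have h1 : δ ≤ ε / (2 * D) := min_le_right _ _
    calc D * δ ≤ D * (ε / (2 * D)) := by
          apply mul_le_mul_of_nonneg_left h1; linarith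
      _ = ε / 2 := by field_simp
      _ < ε := by linarith
  refine ⟨_, two_core r hr ht hd hδ0 hδ1, fun g h hh i j => ?_⟩
  have hh' := (Subgroup.normalCore_le _ hh : h ∈ (ballG E δ hδ0.le hδ1).comap r).1
  have e : (r (g * h) : Matrix (Fin 2) (Fin 2) E) i j - (r g : Matrix (Fin 2) (Fin 2) E) i j
      = ((r g : Matrix (Fin 2) (Fin 2) E) * ((r h : Matrix (Fin 2) (Fin 2) E) - 1)) i j := by
    rw [map_mul, Units.val_mul, mul_sub, mul_one, Matrix.sub_apply]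
  rw [e, Matrix.mul_apply, Fin.sum_univ_two]
  refine (norm_add_le_of (c := D * δ) ?_ ?_).trans_lt hδε
  · rw [norm_mul]
    exact mul_le_mul (hDb _ _ _) (hh' _ _) (norm_nonneg _) (by linarith)
  · rw [norm_mul]
    exact mul_le_mul (hDb _ _ _) (hh' _ _) (norm_nonneg _) (by linarith)

/-- the intersection of the `N` is the kernel of `r` -/
theorem eq_of_two (hr : Continuous r)
    (ht : ∀ g, ‖(r g : Matrix (Fin 2) (Fin 2) E).trace‖ < 1)
    (hd : ∀ g, ‖(r g : Matrix (Fin 2) (Fin 2) E).det - 1‖ < 1) {g h : GQ}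
    (H : ∀ N : Subgroup GQ, Two N → g⁻¹ * h ∈ N) : r g = r h := by
  apply Units.ext
  ext i j
  by_contra hne
  have h0 : 0 < ‖(r h : Matrix (Fin 2) (Fin 2) E) i j - (r g : Matrix (Fin 2) (Fin 2) E) i j‖ := by
    rw [norm_pos_iff, sub_ne_zero]
    exact fun e => hne e.symm
  obtain ⟨N, hN, hN'⟩ := exists_two r hr ht hd h0
  have := hN' g (g⁻¹ * h) (H N hN) i j
  rw [mul_inv_cancel_left] at this
  exact lt_irrefl _ this

/-- **the tame relation for `r`** -/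
theorem tame_r (hr : Continuous r)
    (ht : ∀ g, ‖(r g : Matrix (Fin 2) (Fin 2) E).trace‖ < 1)
    (hd : ∀ g, ‖(r g : Matrix (Fin 2) (Fin 2) E).det - 1‖ < 1)
    {ℓ : ℕ} (hℓ : ℓ.Prime) (hℓ2 : ℓ ≠ 2) {P : Ideal (𝓞 Qb)} (hP : P.IsPrime)
    (hPℓ : (ℓ : 𝓞 Qb) ∈ P) {σ τ : GQ} (hσ : ∀ x : 𝓞 Qb, σ • x - x ^ ℓ ∈ P)
    (hτ : ∀ x : 𝓞 Qb, τ • x - x ∈ P) : r σ * r τ = r τ ^ ℓ * r σ := by
  rw [← map_mul, ← map_pow, ← map_mul]
  refine eq_of_two r hr ht hd fun N hN => ?_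
  have hn := hN.1
  have hker : (QuotientGroup.mk' N).ker = N := QuotientGroup.ker_mk' N
  have h := tame (f := QuotientGroup.mk' N) (by rw [hker]; exact hN.2.1)
    (fun g => by
      obtain ⟨k, hk⟩ := hN.2.2 g
      exact ⟨k, by rw [← map_pow]; exact (QuotientGroup.eq_one_iff _).2 hk⟩) hℓ hℓ2 hP hPℓ hσ hτ
  rw [← map_mul, ← map_pow, ← map_mul] at h
  exact QuotientGroup.eq.1 h

/-- a matrix of order two which is not `± 1` has trace `0` and determinant `-1` -/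
lemma trace_det_of_sq {A : Matrix (Fin 2) (Fin 2) E} (h : A * A = 1) (h1 : A ≠ 1) (h2 : A ≠ -1) :
    A.trace = 0 ∧ A.det = -1 := by
  have h00 := congrFun (congrFun h 0) 0
  have h01 := congrFun (congrFun h 0) 1
  have h10 := congrFun (congrFun h 1) 0
  have h11 := congrFun (congrFun h 1) 1
  simp only [Matrix.mul_apply, Fin.sum_univ_two, Matrix.one_apply_eq, ne_eq, zero_ne_one,
    not_false_eq_true, Matrix.one_apply_ne, one_ne_zero] at h00 h01 h10 h11
  have ht : A 0 0 + A 1 1 = 0 := by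
    by_contra hne
    have e01 : A 0 1 = 0 := by
      have : A 0 1 * (A 0 0 + A 1 1) = 0 := by linear_combination h01
      exact (mul_eq_zero.1 this).resolve_right hne
    have e10 : A 1 0 = 0 := by
      have : A 1 0 * (A 0 0 + A 1 1) = 0 := by linear_combination h10
      exact (mul_eq_zero.1 this).resolve_right hne
    have e3 : (A 0 0 - A 1 1) * (A 0 0 + A 1 1) = 0 := by
      rw [e01, e10] at h00 h11; linear_combination h00 - h11
    have e4 : A 0 0 = A 1 1 := sub_eq_zero.1 ((mul_eq_zero.1 e3).resolve_right hne)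
    have e5 : (A 0 0 - 1) * (A 0 0 + 1) = 0 := by
      rw [e01] at h00; linear_combination h00
    rcases mul_eq_zero.1 e5 with h5 | h5
    · apply h1
      ext i j
      fin_cases i <;> fin_cases j <;> simp [e01, e10, ← e4, sub_eq_zero.1 h5]
    · apply h2
      ext i j
      fin_cases i <;> fin_cases j <;> simp [e01, e10, ← e4, eq_neg_of_add_eq_zero_left h5]
  constructor
  · rw [trace_fin_two]; exact ht
  · rw [det_fin_two]
    linear_combination (A 0 0) * ht - h00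

/-- **the type at `ℓ`**: if the elements of the inertia group at `P` act with order at most two and
one of them not by `± 1`, then the generator `τ` has trace `0`, determinant `-1` and commutes with
the Frobenius element `σ` -/
theorem type_r (hr : Continuous r)
    (ht : ∀ g, ‖(r g : Matrix (Fin 2) (Fin 2) E).trace‖ < 1)
    (hd : ∀ g, ‖(r g : Matrix (Fin 2) (Fin 2) E).det - 1‖ < 1)
    {ℓ : ℕ} (hℓ : ℓ.Prime) (hℓ2 : ℓ ≠ 2) {P : Ideal (𝓞 Qb)} (hP : P.IsPrime)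
    (hPℓ : (ℓ : 𝓞 Qb) ∈ P) {σ τ : GQ} (hσ : ∀ x : 𝓞 Qb, σ • x - x ^ ℓ ∈ P)
    (hτ : ∀ x : 𝓞 Qb, τ • x - x ∈ P)
    (hgen : ∀ N : Subgroup GQ, Two N → ∀ g ∈ inP P, ∃ n : ℕ, g⁻¹ * τ ^ n ∈ N)
    (h2 : ∀ g : GQ, (∀ x : 𝓞 Qb, g • x - x ∈ P) → r g ^ 2 = 1)
    (h1 : ∃ g : GQ, (∀ x : 𝓞 Qb, g • x - x ∈ P) ∧ r g ≠ 1 ∧ r g ≠ -1) :
    r τ ^ 2 = 1 ∧ (r τ : Matrix (Fin 2) (Fin 2) E).trace = 0 ∧
      (r τ : Matrix (Fin 2) (Fin 2) E).det = -1 ∧ r σ * r τ = r τ * r σ ∧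
      ∀ g : GQ, (∀ x : 𝓞 Qb, g • x - x ∈ P) → r g = 1 ∨ r g = r τ := by
  have hτ2 := h2 τ hτ
  have hpow : ∀ n : ℕ, r τ ^ n = 1 ∨ r τ ^ n = r τ := by
    intro n
    rcases Nat.even_or_odd' n with ⟨m, rfl | rfl⟩
    · left; rw [pow_mul, hτ2, one_pow]
    · right; rw [pow_succ, pow_mul, hτ2, one_pow, one_mul]
  have hall : ∀ g : GQ, (∀ x : 𝓞 Qb, g • x - x ∈ P) → r g = 1 ∨ r g = r τ := by
    intro g hg
    by_contra hne
    push Not at hne
    -- both matrices are at a positive distance of `r g`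
    have hdist : ∀ A : GL (Fin 2) E, r g ≠ A → ∃ i j, 0 <
        ‖(A : Matrix (Fin 2) (Fin 2) E) i j - (r g : Matrix (Fin 2) (Fin 2) E) i j‖ := by
      intro A hA
      by_contra hc
      push Not at hc
      apply hA
      apply Units.ext
      ext i j
      have := le_antisymm (hc i j) (norm_nonneg _)
      exact (sub_eq_zero.1 (norm_eq_zero.1 this)).symm
    obtain ⟨i, j, hij⟩ := hdist 1 hne.1
    obtain ⟨i', j', hij'⟩ := hdist (r τ) hne.2
    obtain ⟨N, hN, hN'⟩ := exists_two r hr ht hd (lt_min hij hij')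
    obtain ⟨n, hn⟩ := hgen N hN g hg
    have hc : ∀ i j, ‖(r (τ ^ n) : Matrix (Fin 2) (Fin 2) E) i j
        - (r g : Matrix (Fin 2) (Fin 2) E) i j‖ < min _ _ := fun i j => by
      have := hN' g _ hn i j
      rwa [mul_inv_cancel_left] at this
    rw [map_pow] at hc
    rcases hpow n with h | h
    · rw [h] at hc
      exact absurd ((hc i j).trans_le (min_le_left _ _)) (lt_irrefl _)
    · rw [h] at hc
      exact absurd ((hc i' j').trans_le (min_le_right _ _)) (lt_irrefl _)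
  obtain ⟨g, hg, hg1, hg2⟩ := h1
  have hτ1 : r τ ≠ 1 := by
    intro h
    rcases hall g hg with h' | h'
    · exact hg1 h'
    · exact hg1 (h'.trans h)
  have hτm : r τ ≠ -1 := by
    intro h
    rcases hall g hg with h' | h'
    · exact hg1 h'
    · exact hg2 (h'.trans h)
  have hsq : (r τ : Matrix (Fin 2) (Fin 2) E) * (r τ : Matrix (Fin 2) (Fin 2) E) = 1 := by
    rw [← Units.val_mul, ← pow_two, hτ2, Units.val_one]
  obtain ⟨h3, h4⟩ := trace_det_of_sq hsq (fun h => hτ1 (Units.ext h)) (fun h => hτm (by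
    apply Units.ext; rw [h]; simp))
  refine ⟨hτ2, h3, h4, ?_, hall⟩
  have h5 := tame_r r hr ht hd hℓ hℓ2 hP hPℓ hσ hτ
  obtain ⟨n, hn⟩ := hℓ.odd_of_ne_two hℓ2
  rw [h5, hn, pow_succ, pow_mul, hτ2, one_pow, one_mul]

/-- the kernel of a homomorphism to a group whose elements have 2-power order -/
lemma Two.ker {H : Type*} [Group H] (f : GQ →* H) (hf : IsOpen (f.ker : Set GQ))
    (h2 : ∀ g, ∃ k : ℕ, f g ^ (2 ^ k) = 1) : Two f.ker :=
  ⟨inferInstance, hf, fun g => by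
    obtain ⟨k, hk⟩ := h2 g
    exact ⟨k, by rw [MonoidHom.mem_ker, map_pow]; exact hk⟩⟩

end

end Vale.Agent.P022.H443
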