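import Vale.Agent.P022.H132.L3.Defs
import Vale.Agent.P022.H853.L3.Gen
import Vale.Agent.P022.H20.Frob
import Vale.Agent.P022.H443.TwoR

/-!
# P022-L3: [RGOOD] and [TRI] (helper443)

* `rgood`: a continuous residually trivial `r` unramified outside `{2, 3}` is constant up to `ε` on
  the cosets of some `Good U`;
* `tri`: generators `c, τ, σ` of all quotients `G_ℚ / U`, `U` good.
-/

open scoped NumberField
open Matrix

noncomputable section

namespace Vale.Agent.P022.H443

open Vale.Agent.P022 Vale.Agent.P022.H132.Z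

lemma two_of_good {U : Subgroup GQ} (h : Good U) : Two U := ⟨h.nor, h.op, h.two⟩

section

variable {E : Type*} [NontriviallyNormedField E] [NormedAlgebra ℚ_[2] E] [IsUltrametricDist E]
  (r : GQ →* GL (Fin 2) E)

lemma ker_le_core {ε : ℝ} (h0 : 0 ≤ ε) (h1 : ε ≤ 1) :
    r.ker ≤ ((ballG E ε h0 h1).comap r).normalCore := by
  apply Subgroup.normal_le_normalCore.2
  intro g hg
  rw [MonoidHom.mem_ker] at hg
  show g ∈ (ballG E ε h0 h1).comap r
  rw [Subgroup.mem_comap, hg]
  exact Subgroup.one_mem _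

/-- **[RGOOD]** -/
theorem rgood (hr : Continuous r)
    (ht : ∀ g, ‖(r g : Matrix (Fin 2) (Fin 2) E).trace‖ < 1)
    (hd : ∀ g, ‖(r g : Matrix (Fin 2) (Fin 2) E).det - 1‖ < 1)
    (hu : ∀ ℓ : ℕ, ℓ.Prime → ¬ ℓ ∣ 6 → UnrAt r ℓ) {ε : ℝ} (h0 : 0 < ε) :
    ∃ U : Subgroup GQ, Good U ∧ ∀ g : GQ, ∀ u ∈ U,
      ‖(r (g * u) : Matrix (Fin 2) (Fin 2) E).trace - (r g : Matrix (Fin 2) (Fin 2) E).trace‖ < ε ∧
      ‖(r (g * u) : Matrix (Fin 2) (Fin 2) E).det - (r g : Matrix (Fin 2) (Fin 2) E).det‖ < ε := by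
  have := galQb
  -- the entries are bounded
  have hbd : ∀ i j, ∃ C : ℝ, ∀ g, ‖(r g : Matrix (Fin 2) (Fin 2) E) i j‖ ≤ C := by
    intro i j
    obtain ⟨C, hC⟩ := (isCompact_univ (X := GQ)).exists_bound_of_continuousOn
      (cont_entry r hr i j).continuousOn
    exact ⟨C, fun g => hC g trivial⟩
  choose C hC using hbd
  set D : ℝ := 1 + ∑ i, ∑ j, |C i j| with hD
  have hD1 : 1 ≤ D := by
    have : 0 ≤ ∑ i, ∑ j, |C i j| :=
      Finset.sum_nonneg fun i _ => Finset.sum_nonneg fun j _ => abs_nonneg _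
    linarith
  have hDb : ∀ i j g, ‖(r g : Matrix (Fin 2) (Fin 2) E) i j‖ ≤ D := by
    intro i j g
    have h1 : |C i j| ≤ ∑ j, |C i j| :=
      Finset.single_le_sum (f := fun j => |C i j|) (fun j _ => abs_nonneg _) (Finset.mem_univ j)
    have h3 : ∑ j, |C i j| ≤ ∑ i, ∑ j, |C i j| :=
      Finset.single_le_sum (f := fun i => ∑ j, |C i j|)
        (fun i _ => Finset.sum_nonneg fun j _ => abs_nonneg _) (Finset.mem_univ i)
    have h4 := hC i j g
    have h5 := le_abs_self (C i j)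
    linarith
  set δ : ℝ := min 1 (ε / (2 * D)) with hδ
  have hδ0 : 0 < δ := lt_min one_pos (by positivity)
  have hδ1 : δ ≤ 1 := min_le_left _ _
  have hδε : D * δ < ε := by
    have h1 : δ ≤ ε / (2 * D) := min_le_right _ _
    calc D * δ ≤ D * (ε / (2 * D)) := by
          apply mul_le_mul_of_nonneg_left h1; linarith
      _ = ε / 2 := by field_simp
      _ < ε := by linarith
  have hδε' : δ < ε := lt_of_le_of_lt (by nlinarith) hδε
  have htwo := two_core r hr ht hd hδ0 hδ1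
  refine ⟨_, ⟨htwo.1, htwo.2.1, htwo.2.2, ?_⟩, fun g h hh => ?_⟩
  · intro ℓ hℓ h6 P hP hPℓ g hg
    exact ker_le_core r hδ0.le hδ1 (hu ℓ hℓ h6 P hP hPℓ g hg)
  · have hh' := (Subgroup.normalCore_le _ hh : h ∈ (ballG E δ hδ0.le hδ1).comap r).1
    have hent : ∀ i j, ‖(r (g * h) : Matrix (Fin 2) (Fin 2) E) i j
        - (r g : Matrix (Fin 2) (Fin 2) E) i j‖ < ε := by
      intro i j
      have e : (r (g * h) : Matrix (Fin 2) (Fin 2) E) i j - (r g : Matrix (Fin 2) (Fin 2) E) i j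
          = ((r g : Matrix (Fin 2) (Fin 2) E) * ((r h : Matrix (Fin 2) (Fin 2) E) - 1)) i j := by
        rw [map_mul, Units.val_mul, mul_sub, mul_one, Matrix.sub_apply]
      rw [e, Matrix.mul_apply, Fin.sum_univ_two]
      refine (norm_add_le_of (c := D * δ) ?_ ?_).trans_lt hδε
      · rw [norm_mul]
        exact mul_le_mul (hDb _ _ _) (hh' _ _) (norm_nonneg _) (by linarith)
      · rw [norm_mul]
        exact mul_le_mul (hDb _ _ _) (hh' _ _) (norm_nonneg _) (by linarith)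
    constructor
    · have e : (r (g * h) : Matrix (Fin 2) (Fin 2) E).trace - (r g : Matrix (Fin 2) (Fin 2) E).trace
          = ((r (g * h) : Matrix (Fin 2) (Fin 2) E) 0 0 - (r g : Matrix (Fin 2) (Fin 2) E) 0 0)
            + ((r (g * h) : Matrix (Fin 2) (Fin 2) E) 1 1 - (r g : Matrix (Fin 2) (Fin 2) E) 1 1) := by
        rw [trace_fin_two, trace_fin_two]; ring
      rw [e]
      exact (IsUltrametricDist.norm_add_le_max _ _).trans_lt (max_lt (hent 0 0) (hent 1 1))
    · -- the determinant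
      have hdet : ‖(r h : Matrix (Fin 2) (Fin 2) E).det - 1‖ ≤ δ := by
        set B : Matrix (Fin 2) (Fin 2) E := (r h : Matrix (Fin 2) (Fin 2) E) - 1 with hB
        have e : (r h : Matrix (Fin 2) (Fin 2) E).det - 1
            = (B 0 0 + B 1 1) + (B 0 0 * B 1 1 - B 0 1 * B 1 0) := by
          rw [det_fin_two, hB]
          simp only [Matrix.sub_apply, Matrix.one_apply_eq, ne_eq, zero_ne_one,
            not_false_eq_true, Matrix.one_apply_ne, one_ne_zero]
          ring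
        rw [e]
        have hm : ∀ i j k l, ‖B i j * B k l‖ ≤ δ := by
          intro i j k l
          rw [norm_mul]
          calc _ ≤ δ * 1 := mul_le_mul (hh' i j) ((hh' k l).trans hδ1) (norm_nonneg _) hδ0.le
            _ = δ := mul_one δ
        exact norm_add_le_of (norm_add_le_of (hh' 0 0) (hh' 1 1))
          (norm_sub_le_of (hm _ _ _ _) (hm _ _ _ _))
      have hg1 : ‖(r g : Matrix (Fin 2) (Fin 2) E).det‖ ≤ 1 := by
        have e : (r g : Matrix (Fin 2) (Fin 2) E).det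
            = ((r g : Matrix (Fin 2) (Fin 2) E).det - 1) + 1 := by ring
        rw [e]
        exact norm_add_le_of (hd g).le (by simp)
      have e : (r (g * h) : Matrix (Fin 2) (Fin 2) E).det - (r g : Matrix (Fin 2) (Fin 2) E).det
          = (r g : Matrix (Fin 2) (Fin 2) E).det * ((r h : Matrix (Fin 2) (Fin 2) E).det - 1) := by
        rw [map_mul, Units.val_mul, det_mul]; ring
      rw [e, norm_mul]
      calc _ ≤ 1 * δ := mul_le_mul hg1 hdet (norm_nonneg _) zero_le_one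
        _ = δ := one_mul δ
        _ < ε := hδε'

/-- the trace of `r` is compatible with the tame relation -/
theorem rtame (hr : Continuous r)
    (ht : ∀ g, ‖(r g : Matrix (Fin 2) (Fin 2) E).trace‖ < 1)
    (hd : ∀ g, ‖(r g : Matrix (Fin 2) (Fin 2) E).det - 1‖ < 1)
    {P : Ideal (𝓞 Qb)} (hP : P.IsPrime) (h3 : ((3 : ℕ) : 𝓞 Qb) ∈ P) {σ τ : GQ}
    (hσ : ∀ x : 𝓞 Qb, σ • x - x ^ 3 ∈ P) (hτ : ∀ x : 𝓞 Qb, τ • x - x ∈ P) (g h : GQ) :
    r (g * σ * τ * h) = r (g * τ ^ 3 * σ * h) := by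
  have h1 := tame_r r hr ht hd Nat.prime_three (by norm_num) hP h3 hσ hτ
  rw [map_mul, map_mul, map_mul, map_mul, map_mul, map_mul, map_pow, mul_assoc (r g), h1,
    ← mul_assoc]

end

/-! ### the generators -/

/-- an inertia element at `3` which moves `√-3` -/
theorem exists_inertia_sqrt {P : Ideal (𝓞 Qb)} (hP : P.IsPrime) (h3 : ((3 : ℕ) : 𝓞 Qb) ∈ P)
    {s : Qb} (hs : s ^ 2 = -3) : ∃ g : GQ, (∀ x : 𝓞 Qb, g • x - x ∈ P) ∧ g s = -s := by
  have hf3 : Fact (Nat.Prime 3) := ⟨Nat.prime_three⟩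
  let K := CyclotomicField 3 ℚ
  have hK : IsCyclotomicExtension {3} ℚ K := CyclotomicField.isCyclotomicExtension 3 ℚ
  have hN : NumberField K := IsCyclotomicExtension.numberField {3} ℚ K
  obtain ⟨j⟩ : Nonempty (K →+* Qb) := ⟨(IsAlgClosed.lift (R := ℚ) (S := K) (M := Qb)).toRingHom⟩
  have hfr : Module.finrank ℚ K = 2 := by
    rw [IsCyclotomicExtension.finrank (n := 3) K
      (Polynomial.cyclotomic.irreducible_rat (by norm_num))]
    decide
  have hdisc : ((3 : ℕ) : ℤ) ∣ NumberField.discr K := by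
    rw [IsCyclotomicExtension.Rat.discr_prime 3 K]
    norm_num
  obtain ⟨g, hg, hgj⟩ := H916.exists_inertia j hfr hdisc hP h3
  refine ⟨g, hg, ?_⟩
  have hζ := IsCyclotomicExtension.zeta_spec 3 ℚ K
  set ζ := IsCyclotomicExtension.zeta 3 ℚ K with hζd
  have hω : j ζ ^ 2 + j ζ + 1 = 0 := by
    rw [← map_pow, ← map_add, ← map_one j, ← map_add]
    have h1 : (ζ - 1) * (ζ ^ 2 + ζ + 1) = 0 := by
      have := hζ.pow_eq_one
      linear_combination this
    rcases mul_eq_zero.1 h1 with h | h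
    · exact absurd (sub_eq_zero.1 h) (hζ.ne_one (by norm_num))
    · rw [h, map_zero]
  have hne : g (j ζ) ≠ j ζ := by
    intro h
    apply hgj
    let φ₁ := RingHom.equivRatAlgHom K Qb j
    let φ₂ := RingHom.equivRatAlgHom K Qb ((g : Qb →+* Qb).comp j)
    have h2 : φ₁ = φ₂ := by
      apply (hζ.powerBasis ℚ).algHom_ext
      rw [hζ.powerBasis_gen ℚ]
      exact h.symm
    intro x
    exact (DFunLike.congr_fun h2 x).symm
  have hs2 : (s - (2 * j ζ + 1)) * (s + (2 * j ζ + 1)) = 0 := by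
    linear_combination hs - 4 * hω
  have hgs : (g s - s) * (g s + s) = 0 := by
    have h1 : g s ^ 2 = -3 := by rw [← map_pow, hs, map_neg, map_ofNat]
    linear_combination h1 - hs
  rcases mul_eq_zero.1 hgs with h | h
  · exfalso
    apply hne
    have h4 : g s = s := sub_eq_zero.1 h
    rcases mul_eq_zero.1 hs2 with h5 | h5
    · have h6 : s = 2 * j ζ + 1 := sub_eq_zero.1 h5
      rw [h6, map_add, map_mul, map_ofNat, map_one] at h4
      have h7 : (2 : Qb) * (g (j ζ) - j ζ) = 0 := by linear_combination h4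
      exact sub_eq_zero.1 ((mul_eq_zero.1 h7).resolve_left two_ne_zero)
    · have h6 : s = -(2 * j ζ + 1) := eq_neg_of_add_eq_zero_left h5
      rw [h6, map_neg, map_add, map_mul, map_ofNat, map_one] at h4
      have h7 : (2 : Qb) * (g (j ζ) - j ζ) = 0 := by linear_combination -h4
      exact sub_eq_zero.1 ((mul_eq_zero.1 h7).resolve_left two_ne_zero)
  · exact eq_neg_of_add_eq_zero_left h

/-- complex conjugations exist -/
theorem exists_isConj : ∃ c : GQ, IsConj c := by
  have := galQb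
  have := algQb
  let φ : Qb →+* ℂ := (IsAlgClosed.lift (R := ℚ) (S := Qb) (M := ℂ)).toRingHom
  let _ : Algebra Qb ℂ := φ.toAlgebra
  have : IsScalarTower ℚ Qb ℂ := IsScalarTower.of_algebraMap_eq' (Subsingleton.elim _ _)
  have hn : Normal ℚ Qb := inferInstance
  let χ : ℂ ≃ₐ[ℚ] ℂ := Complex.conjAe.restrictScalars ℚ
  refine ⟨χ.restrictNormal Qb, φ, fun x => ?_⟩
  exact AlgEquiv.restrictNormal_commutes χ Qb x

/-- **[TRI]**: generators of all good quotients of `G_ℚ` -/
theorem tri : ∃ (P : Ideal (𝓞 Qb)) (s : Qb) (c τ σ : GQ), P.IsPrime ∧ ((3 : ℕ) : 𝓞 Qb) ∈ P ∧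
    s ^ 2 = -3 ∧ IsConj c ∧ c * c = 1 ∧
    (∀ x : 𝓞 Qb, τ • x - x ∈ P) ∧ τ s = -s ∧
    (∀ x : 𝓞 Qb, σ • x - x ^ 3 ∈ P) ∧ σ s = s ∧
    (∀ N : Subgroup GQ, Two N → ∀ g ∈ inP P, ∃ n : ℕ, g⁻¹ * τ ^ n ∈ N) ∧
    (∀ U : Subgroup GQ, Good U → Subgroup.closure {c, τ, σ} ⊔ U = ⊤) ∧
    (∀ U : Subgroup GQ, Good U → (σ * τ)⁻¹ * (τ ^ 3 * σ) ∈ U) := by
  obtain ⟨c, hc⟩ := exists_isConj
  obtain ⟨s, hs⟩ : ∃ s : Qb, s ^ 2 = -3 := IsAlgClosed.exists_pow_nat_eq (-3 : Qb) (by norm_num)
  obtain ⟨σ₀, P, hP, h3, hσ₀⟩ := H20.exists_isFrob Nat.prime_three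
  obtain ⟨τ, hτ, hgen⟩ := exists_gen Nat.prime_three (by norm_num) hP h3
  have hs0 : s ≠ 0 := by
    rintro rfl
    norm_num at hs
  have hsm : s ≠ -s := by
    intro h
    have h1 : (2 : Qb) * s = 0 := by linear_combination h
    exact hs0 ((mul_eq_zero.1 h1).resolve_left two_ne_zero)
  have hpm : ∀ g : GQ, g s = s ∨ g s = -s := by
    intro g
    have hgs : (g s - s) * (g s + s) = 0 := by
      have h1 : g s ^ 2 = -3 := by rw [← map_pow, hs, map_neg, map_ofNat]
      linear_combination h1 - hs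
    rcases mul_eq_zero.1 hgs with h | h
    · exact Or.inl (sub_eq_zero.1 h)
    · exact Or.inr (eq_neg_of_add_eq_zero_left h)
  -- `τ` moves `s`
  have hτs : τ s = -s := by
    rcases hpm τ with h | h
    · exfalso
      let N : Subgroup GQ := MulAction.stabilizer GQ s
      have hmemN : ∀ g : GQ, g ∈ N ↔ g s = s := fun g => MulAction.mem_stabilizer_iff
      have hcomm : ∀ g : GQ, ∀ n ∈ N, g * n * g⁻¹ ∈ N := by
        intro g n hn
        rw [hmemN] at hn ⊢
        rw [AlgEquiv.mul_apply, AlgEquiv.mul_apply]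
        rcases hpm g⁻¹ with h1 | h1
        · rw [h1, hn]
          have : g (g⁻¹ s) = s := by rw [← AlgEquiv.mul_apply, mul_inv_cancel]; rfl
          rwa [h1] at this
        · rw [h1, map_neg, hn]
          have : g (g⁻¹ s) = s := by rw [← AlgEquiv.mul_apply, mul_inv_cancel]; rfl
          rwa [h1] at this
      have hN : Two N := by
        refine ⟨⟨fun n hn g => hcomm g n hn⟩, ?_, fun g => ⟨1, ?_⟩⟩
        · have := algQb
          exact stabilizer_isOpen_of_isIntegral s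
        · rw [hmemN, pow_one, pow_two, AlgEquiv.mul_apply]
          rcases hpm g with h1 | h1
          · rw [h1, h1]
          · rw [h1, map_neg, h1, neg_neg]
      obtain ⟨g, hg, hgs⟩ := exists_inertia_sqrt hP h3 hs
      obtain ⟨n, hn⟩ := hgen N hN g hg
      rw [hmemN, AlgEquiv.mul_apply] at hn
      have hτn : ∀ n : ℕ, (τ ^ n) s = s := by
        intro n
        induction n with
        | zero => rfl
        | succ n ih => rw [pow_succ, AlgEquiv.mul_apply, h, ih]
      rw [hτn] at hn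
      have h5 : g (g⁻¹ s) = s := by rw [← AlgEquiv.mul_apply, mul_inv_cancel]; rfl
      rw [hn, hgs] at h5
      exact hsm h5.symm
    · exact h
  -- a Frobenius element which fixes `s`
  obtain ⟨σ, hσ, hσs⟩ : ∃ σ : GQ, (∀ x : 𝓞 Qb, σ • x - x ^ 3 ∈ P) ∧ σ s = s := by
    rcases hpm σ₀ with h | h
    · exact ⟨σ₀, hσ₀, h⟩
    · refine ⟨σ₀ * τ, fun x => ?_, ?_⟩
      · have h1 := P.sub_mem (P.add_mem (hσ₀ (τ • x)) (Ideal.zero_mem P)) (Ideal.zero_mem P)
        rw [mul_smul]
        have h2 : (τ • x) ^ 3 - x ^ 3 ∈ P := by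
          have e : (τ • x) ^ 3 - x ^ 3 = (τ • x - x) * ((τ • x) ^ 2 + (τ • x) * x + x ^ 2) := by ring
          rw [e]
          exact P.mul_mem_right _ (hτ x)
        have h3' := P.add_mem (hσ₀ (τ • x)) h2
        simpa using h3'
      · rw [AlgEquiv.mul_apply, hτs, map_neg, h, neg_neg]
  refine ⟨P, s, c, τ, σ, hP, h3, hs, hc, H20.conj_sq hc, hτ, hτs, hσ, hσs, hgen, ?_, ?_⟩
  · intro U hU
    have hn := hU.nor
    have hfin : Finite (GQ ⧸ U) := by
      have := galQb
      exact Subgroup.quotient_finite_of_isOpen U hU.op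
    have hker : (QuotientGroup.mk' U).ker = U := QuotientGroup.ker_mk' U
    have hp : IsPGroup 2 (GQ ⧸ U) := by
      intro x
      obtain ⟨g, rfl⟩ := QuotientGroup.mk'_surjective U x
      obtain ⟨k, hk⟩ := hU.two g
      refine ⟨k, ?_⟩
      rw [← map_pow]
      exact (QuotientGroup.eq_one_iff _).2 hk
    have h1 : (Subgroup.closure {c, τ, σ}).map (QuotientGroup.mk' U) = ⊤ := by
      refine H853.gen hp (QuotientGroup.mk' U) (by rw [hker]; exact hU.op)
        (QuotientGroup.mk'_surjective U) (fun ℓ hℓ h6 Q hQ hℓQ g hg =>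
          (QuotientGroup.eq_one_iff g).2 (hU.unr ℓ hℓ h6 Q hQ hℓQ g hg)) hc hP h3 hσ _ ?_ ?_ ?_
      · exact Subgroup.mem_map_of_mem _ (Subgroup.subset_closure (by simp))
      · exact Subgroup.mem_map_of_mem _ (Subgroup.subset_closure (by simp))
      · intro g hg
        obtain ⟨n, hn'⟩ := hgen U (two_of_good hU) g hg
        have h2 : (QuotientGroup.mk' U) g = (QuotientGroup.mk' U) (τ ^ n) := QuotientGroup.eq.2 hn'
        rw [h2]
        exact Subgroup.mem_map_of_mem _ (Subgroup.pow_mem _ (Subgroup.subset_closure (by simp)) n)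
    rw [eq_top_iff]
    intro g _
    have h2 : (QuotientGroup.mk' U) g ∈ (Subgroup.closure {c, τ, σ}).map (QuotientGroup.mk' U) := by
      rw [h1]; trivial
    obtain ⟨w, hw, hwg⟩ := Subgroup.mem_map.1 h2
    have h4 : w⁻¹ * g ∈ U := QuotientGroup.eq.1 hwg
    have h5 : g = w * (w⁻¹ * g) := by group
    rw [h5]
    exact Subgroup.mul_mem_sup hw h4
  · intro U hU
    have hn := hU.nor
    have hker : (QuotientGroup.mk' U).ker = U := QuotientGroup.ker_mk' U
    have h := tame (f := QuotientGroup.mk' U) (by rw [hker]; exact hU.op)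
      (fun g => by
        obtain ⟨k, hk⟩ := hU.two g
        exact ⟨k, by rw [← map_pow]; exact (QuotientGroup.eq_one_iff _).2 hk⟩) Nat.prime_three
      (by norm_num) hP h3 hσ hτ
    rw [← map_mul, ← map_pow, ← map_mul] at h
    exact QuotientGroup.eq.1 h

end Vale.Agent.P022.H443
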