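import Mathlib

/-!
P022, stage 3 (real quadratic fields): the one variable integral of the unfolding.
-/

open Real MeasureTheory Set

noncomputable section

namespace Vale.Agent.P022.H443

/-- the real kernel -/
def rk (y a b t : ℝ) : ℝ :=
  (a * exp t + b * exp (-t)) * exp (-(π * y) * (a ^ 2 * exp (2 * t) + b ^ 2 * exp (-(2 * t))))

theorem exp_sq (t : ℝ) : exp t ^ 2 = exp (2 * t) := by
  rw [← exp_nat_mul]; norm_num

theorem exp_sq' (t : ℝ) : exp (-t) ^ 2 = exp (-(2 * t)) := by
  rw [← exp_nat_mul]; congr 1; push_cast; ring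

theorem exp_mul_neg (t : ℝ) : exp t * exp (-t) = 1 := by
  rw [← exp_add]; simp

theorem continuous_rk (y a b : ℝ) : Continuous (rk y a b) := by
  unfold rk; fun_prop

theorem rk_neg (y a b t : ℝ) : rk y (-a) (-b) t = -rk y a b t := by
  unfold rk; ring_nf

/-! ### `a, b > 0` -/

/-- the substitution -/
def ph (a b t : ℝ) : ℝ := a * exp t - b * exp (-t)

theorem hasDerivAt_ph (a b t : ℝ) : HasDerivAt (ph a b) (a * exp t + b * exp (-t)) t := by
  have h1 : HasDerivAt (fun t : ℝ => a * exp t) (a * exp t) t := (Real.hasDerivAt_exp t).const_mul a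
  have h2 : HasDerivAt (fun t : ℝ => exp (-t)) (exp (-t) * (-1)) t :=
    (Real.hasDerivAt_exp (-t)).comp t (hasDerivAt_neg t)
  have h3 := h1.sub (h2.const_mul b)
  have : a * exp t - b * (exp (-t) * (-1)) = a * exp t + b * exp (-t) := by ring
  rw [this] at h3
  exact h3

theorem ph_sq (a b t : ℝ) :
    ph a b t ^ 2 + 2 * (a * b) = a ^ 2 * exp (2 * t) + b ^ 2 * exp (-(2 * t)) := by
  unfold ph
  rw [← exp_sq, ← exp_sq']
  have := exp_mul_neg t
  linear_combination (-(2 * a * b)) * this

theorem ph_strictMono {a b : ℝ} (ha : 0 < a) (hb : 0 < b) : StrictMono (ph a b) := by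
  intro s t hst
  unfold ph
  have h1 : exp s < exp t := exp_lt_exp.2 hst
  have h2 : exp (-t) < exp (-s) := exp_lt_exp.2 (by linarith)
  nlinarith

theorem ph_surj {a b : ℝ} (ha : 0 < a) (hb : 0 < b) : Function.Surjective (ph a b) := by
  have hc : Continuous (ph a b) := by unfold ph; fun_prop
  refine hc.surjective ?_ ?_
  · unfold ph
    have h1 : Filter.Tendsto (fun t : ℝ => a * exp t) Filter.atTop Filter.atTop :=
      Filter.Tendsto.const_mul_atTop ha tendsto_exp_atTop
    have h2 : Filter.Tendsto (fun t : ℝ => -(b * exp (-t))) Filter.atTop (nhds (-(b * 0))) :=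
      ((Real.tendsto_exp_neg_atTop_nhds_zero).const_mul b).neg
    exact (h1.atTop_add h2)
  · unfold ph
    have h1 : Filter.Tendsto (fun t : ℝ => a * exp t) Filter.atBot (nhds (a * 0)) :=
      (tendsto_exp_atBot).const_mul a
    have h2 : Filter.Tendsto (fun t : ℝ => -(b * exp (-t))) Filter.atBot Filter.atBot := by
      have : Filter.Tendsto (fun t : ℝ => b * exp (-t)) Filter.atBot Filter.atTop :=
        Filter.Tendsto.const_mul_atTop hb
          (tendsto_exp_atTop.comp Filter.tendsto_neg_atBot_atTop)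
      exact Filter.tendsto_neg_atTop_atBot.comp this
    exact h1.add_atBot h2

theorem rk_eq (y a b t : ℝ) :
    rk y a b t = exp (-(2 * π * y * (a * b))) *
      ((a * exp t + b * exp (-t)) * exp (-(π * y) * ph a b t ^ 2)) := by
  unfold rk
  rw [← ph_sq]
  have : exp (-(π * y) * (ph a b t ^ 2 + 2 * (a * b))) =
      exp (-(2 * π * y * (a * b))) * exp (-(π * y) * ph a b t ^ 2) := by
    rw [← exp_add]; congr 1; ring
  rw [this]; ring

theorem pos_pos {y a b : ℝ} (hy : 0 < y) (ha : 0 < a) (hb : 0 < b) :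
    Integrable (rk y a b) ∧
      ∫ t, rk y a b t = (√y)⁻¹ * exp (-(2 * π * y * (a * b))) := by
  have hder : ∀ x ∈ (univ : Set ℝ), HasDerivWithinAt (ph a b) (a * exp x + b * exp (-x)) univ x :=
    fun x _ => (hasDerivAt_ph a b x).hasDerivWithinAt
  have hinj : InjOn (ph a b) univ := (ph_strictMono ha hb).injective.injOn
  have himg : ph a b '' univ = univ := by rw [image_univ, (ph_surj ha hb).range_eq]
  have hpos : ∀ x : ℝ, |a * exp x + b * exp (-x)| = a * exp x + b * exp (-x) := fun x =>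
    abs_of_pos (by positivity)
  have hpy : 0 < π * y := by positivity
  have hg : Integrable (fun u : ℝ => exp (-(π * y) * u ^ 2)) := integrable_exp_neg_mul_sq hpy
  have hI := (integrableOn_image_iff_integrableOn_abs_deriv_smul MeasurableSet.univ hder hinj
    (fun u : ℝ => exp (-(π * y) * u ^ 2))).1 (by rw [himg]; exact hg.integrableOn)
  have hE := integral_image_eq_integral_abs_deriv_smul MeasurableSet.univ hder hinj
    (fun u : ℝ => exp (-(π * y) * u ^ 2))
  rw [himg, setIntegral_univ, setIntegral_univ, integral_gaussian] at hE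
  rw [integrableOn_univ] at hI
  simp only [hpos, smul_eq_mul] at hI hE
  have hfun : rk y a b = fun t => exp (-(2 * π * y * (a * b))) *
      ((a * exp t + b * exp (-t)) * exp (-(π * y) * ph a b t ^ 2)) := funext (rk_eq y a b)
  constructor
  · rw [hfun]; exact hI.const_mul _
  · rw [hfun, integral_const_mul, ← hE, mul_comm]
    congr 1
    rw [div_mul_cancel_left₀ Real.pi_ne_zero, sqrt_inv]

/-! ### opposite signs -/

theorem int_opp {y a b : ℝ} (ha : 0 < a) (hb : b < 0) : ∫ t, rk y a b t = 0 := by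
  have hq : 0 < -b / a := div_pos (by linarith) ha
  set s : ℝ := Real.log (-b / a) with hs
  have hes : exp s = -b / a := exp_log hq
  have hes' : exp (-s) = a / (-b) := by rw [exp_neg, hes, inv_div]
  have h1 : ∀ t, rk y a b (s - t) = -rk y a b t := by
    intro t
    have e1 : a * exp (s - t) = -b * exp (-t) := by
      rw [sub_eq_add_neg, exp_add, hes]; field_simp
    have e2 : b * exp (-(s - t)) = -a * exp t := by
      have : -(s - t) = -s + t := by ring
      rw [this, exp_add, hes']
      have hb' : b ≠ 0 := hb.ne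
      field_simp
    have e3 : a ^ 2 * exp (2 * (s - t)) = b ^ 2 * exp (-(2 * t)) := by
      rw [← exp_sq, ← exp_sq', ← mul_pow, e1]; ring
    have e4 : b ^ 2 * exp (-(2 * (s - t))) = a ^ 2 * exp (2 * t) := by
      rw [← exp_sq, ← exp_sq', ← mul_pow, e2]; ring
    unfold rk
    rw [e1, e2, e3, e4, add_comm (b ^ 2 * _)]
    ring
  have h2 : ∫ t, rk y a b (s - t) = ∫ t, rk y a b t := integral_sub_left_eq_self _ _ _
  simp only [h1, integral_neg] at h2
  linarith

/-! ### integrability and the bound -/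

theorem half {c a : ℝ} (hc : 0 < c) (ha : 0 < a) :
    Integrable (fun t : ℝ => a * exp t * exp (-c * (a ^ 2 * exp (2 * t)))) ∧
      ∫ t : ℝ, a * exp t * exp (-c * (a ^ 2 * exp (2 * t))) = √(π / c) / 2 := by
  have hder : ∀ x ∈ (univ : Set ℝ), HasDerivWithinAt (fun t : ℝ => a * exp t) (a * exp x) univ x :=
    fun x _ => ((Real.hasDerivAt_exp x).const_mul a).hasDerivWithinAt
  have hinj : InjOn (fun t : ℝ => a * exp t) univ := by
    intro s _ t _ h
    exact exp_injective (mul_left_cancel₀ ha.ne' h)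
  have himg : (fun t : ℝ => a * exp t) '' univ = Ioi 0 := by
    ext u
    simp only [image_univ, mem_range, mem_Ioi]
    constructor
    · rintro ⟨t, rfl⟩; positivity
    · intro hu
      refine ⟨Real.log (u / a), ?_⟩
      rw [exp_log (by positivity)]; field_simp
  have hpos : ∀ x : ℝ, |a * exp x| = a * exp x := fun x => abs_of_pos (by positivity)
  have hg : Integrable (fun u : ℝ => exp (-c * u ^ 2)) := integrable_exp_neg_mul_sq hc
  have hI := (integrableOn_image_iff_integrableOn_abs_deriv_smul MeasurableSet.univ hder hinj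
    (fun u : ℝ => exp (-c * u ^ 2))).1 (by rw [himg]; exact hg.integrableOn)
  have hE := integral_image_eq_integral_abs_deriv_smul MeasurableSet.univ hder hinj
    (fun u : ℝ => exp (-c * u ^ 2))
  rw [himg, setIntegral_univ, integral_gaussian_Ioi] at hE
  rw [integrableOn_univ] at hI
  simp only [hpos, smul_eq_mul] at hI hE
  have hfun : (fun t : ℝ => a * exp t * exp (-c * (a ^ 2 * exp (2 * t)))) =
      fun t : ℝ => a * exp t * exp (-c * (a * exp t) ^ 2) := by
    funext t
    rw [mul_pow, exp_sq]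
  rw [hfun]
  exact ⟨hI, hE.symm⟩

theorem half' {c b : ℝ} (hc : 0 < c) (hb : 0 < b) :
    Integrable (fun t : ℝ => b * exp (-t) * exp (-c * (b ^ 2 * exp (-(2 * t))))) ∧
      ∫ t : ℝ, b * exp (-t) * exp (-c * (b ^ 2 * exp (-(2 * t)))) = √(π / c) / 2 := by
  obtain ⟨h1, h2⟩ := half hc hb
  have e : (fun t : ℝ => b * exp (-t) * exp (-c * (b ^ 2 * exp (-(2 * t))))) =
      fun t : ℝ => (fun s : ℝ => b * exp s * exp (-c * (b ^ 2 * exp (2 * s)))) (-t) := by
    funext t; simp only [mul_neg]
  rw [e]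
  exact ⟨h1.comp_neg, by rw [integral_neg_eq_self (fun s : ℝ =>
    b * exp s * exp (-c * (b ^ 2 * exp (2 * s)))), h2]⟩

theorem abs_rk_le (y a b t : ℝ) (hy : 0 < y) :
    |rk y a b t| ≤ exp (-(π * y * |a * b|)) *
      (|a| * exp t * exp (-(π * y / 2) * (|a| ^ 2 * exp (2 * t))) +
        |b| * exp (-t) * exp (-(π * y / 2) * (|b| ^ 2 * exp (-(2 * t))))) := by
  have hX : 0 ≤ |a| * exp t := by positivity
  have hY : 0 ≤ |b| * exp (-t) := by positivity
  have hXY : (|a| * exp t) * (|b| * exp (-t)) = |a * b| := by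
    rw [abs_mul]
    have := exp_mul_neg t
    linear_combination (|a| * |b|) * this
  have e1 : |a| ^ 2 * exp (2 * t) = (|a| * exp t) ^ 2 := by rw [mul_pow, exp_sq]
  have e2 : |b| ^ 2 * exp (-(2 * t)) = (|b| * exp (-t)) ^ 2 := by rw [mul_pow, exp_sq']
  have e3 : a ^ 2 * exp (2 * t) + b ^ 2 * exp (-(2 * t)) =
      (|a| * exp t) ^ 2 + (|b| * exp (-t)) ^ 2 := by
    rw [← e1, ← e2, sq_abs, sq_abs]
  unfold rk
  rw [abs_mul, abs_of_pos (exp_pos _), e1, e2, e3]
  set X := |a| * exp t
  set Y := |b| * exp (-t)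
  have hle : |a * exp t + b * exp (-t)| ≤ X + Y := by
    refine (abs_add_le _ _).trans ?_
    rw [abs_mul, abs_mul, abs_of_pos (exp_pos t), abs_of_pos (exp_pos (-t))]
  have hpy : 0 < π * y := by positivity
  have hA : exp (-(π * y) * (X ^ 2 + Y ^ 2)) ≤
      exp (-(π * y * |a * b|)) * exp (-(π * y / 2) * X ^ 2) := by
    rw [← exp_add, exp_le_exp, ← hXY]
    nlinarith [sq_nonneg (X - Y), sq_nonneg Y]
  have hB : exp (-(π * y) * (X ^ 2 + Y ^ 2)) ≤
      exp (-(π * y * |a * b|)) * exp (-(π * y / 2) * Y ^ 2) := by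
    rw [← exp_add, exp_le_exp, ← hXY]
    nlinarith [sq_nonneg (X - Y), sq_nonneg X]
  calc |a * exp t + b * exp (-t)| * exp (-(π * y) * (X ^ 2 + Y ^ 2))
      ≤ (X + Y) * exp (-(π * y) * (X ^ 2 + Y ^ 2)) :=
        mul_le_mul_of_nonneg_right hle (exp_pos _).le
    _ = X * exp (-(π * y) * (X ^ 2 + Y ^ 2)) + Y * exp (-(π * y) * (X ^ 2 + Y ^ 2)) := by ring
    _ ≤ X * (exp (-(π * y * |a * b|)) * exp (-(π * y / 2) * X ^ 2)) +
        Y * (exp (-(π * y * |a * b|)) * exp (-(π * y / 2) * Y ^ 2)) := by gcongr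
    _ = _ := by ring

theorem int_rk {y a b : ℝ} (hy : 0 < y) (ha : a ≠ 0) (hb : b ≠ 0) :
    Integrable (rk y a b) ∧ ∫ t, |rk y a b t| ≤ √(2 / y) * exp (-(π * y * |a * b|)) := by
  have hc : 0 < π * y / 2 := by positivity
  obtain ⟨h1, h2⟩ := half hc (abs_pos.2 ha)
  obtain ⟨h3, h4⟩ := half' hc (abs_pos.2 hb)
  have hm := (h1.add h3).const_mul (exp (-(π * y * |a * b|)))
  have hint : Integrable (rk y a b) := by
    refine hm.mono' (continuous_rk y a b).aestronglyMeasurable ?_
    filter_upwards with t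
    rw [Real.norm_eq_abs]
    exact abs_rk_le y a b t hy
  refine ⟨hint, ?_⟩
  calc ∫ t, |rk y a b t| ≤ ∫ t, exp (-(π * y * |a * b|)) *
      (|a| * exp t * exp (-(π * y / 2) * (|a| ^ 2 * exp (2 * t))) +
        |b| * exp (-t) * exp (-(π * y / 2) * (|b| ^ 2 * exp (-(2 * t))))) :=
        integral_mono hint.abs hm (fun t => abs_rk_le y a b t hy)
    _ = exp (-(π * y * |a * b|)) * (√(π / (π * y / 2)) / 2 + √(π / (π * y / 2)) / 2) := by
        rw [integral_const_mul, integral_add h1 h3, h2, h4]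
    _ = √(2 / y) * exp (-(π * y * |a * b|)) := by
        have : π / (π * y / 2) = 2 / y := by
          have := Real.pi_ne_zero
          field_simp
        rw [this]; ring

/-- the one variable integral, same signs -/
theorem int_same {y a b : ℝ} (hy : 0 < y) (hab : 0 < a * b) :
    ∫ t, rk y a b t = SignType.sign a * (√y)⁻¹ * exp (-(2 * π * y * (a * b))) := by
  rcases lt_trichotomy a 0 with ha | ha | ha
  · have hb : b < 0 := by
      by_contra h
      push Not at h
      nlinarith
    have h := (pos_pos hy (neg_pos.2 ha) (neg_pos.2 hb)).2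
    simp only [rk_neg, integral_neg, neg_mul_neg] at h
    rw [sign_neg ha]
    simp only [SignType.coe_neg_one]
    linarith
  · simp [ha] at hab
  · have hb : 0 < b := by
      by_contra h
      push Not at h
      nlinarith
    rw [(pos_pos hy ha hb).2, sign_pos ha]
    simp

/-- the one variable integral, opposite signs -/
theorem int_opposite {y a b : ℝ} (hab : a * b < 0) : ∫ t, rk y a b t = 0 := by
  rcases lt_trichotomy a 0 with ha | ha | ha
  · have hb : 0 < b := by
      by_contra h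
      push Not at h
      nlinarith
    have h := int_opp (y := y) (neg_pos.2 ha) (neg_lt_zero.2 hb)
    simp only [rk_neg, integral_neg] at h
    linarith
  · simp [ha] at hab
  · have hb : b < 0 := by
      by_contra h
      push Not at h
      nlinarith
    exact int_opp ha hb

/-! ### the complex kernel -/

/-- the complex kernel at `τ = x + i y` -/
def ck (τ : ℂ) (a b t : ℝ) : ℂ :=
  ((a * exp t + b * exp (-t) : ℝ) : ℂ) *
    Complex.exp (2 * π * Complex.I * (a * b * τ.re) -
      π * τ.im * ((a ^ 2 * exp (2 * t) + b ^ 2 * exp (-(2 * t)) : ℝ) : ℂ))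

theorem ck_eq (τ : ℂ) (a b t : ℝ) :
    ck τ a b t = Complex.exp (2 * π * Complex.I * (a * b * τ.re)) * (rk τ.im a b t : ℂ) := by
  unfold ck rk
  rw [sub_eq_add_neg, Complex.exp_add, Complex.ofReal_mul, Complex.ofReal_exp]
  rw [show -(π * τ.im * ((a ^ 2 * exp (2 * t) + b ^ 2 * exp (-(2 * t)) : ℝ) : ℂ) : ℂ) =
    ((-(π * τ.im) * (a ^ 2 * exp (2 * t) + b ^ 2 * exp (-(2 * t))) : ℝ) : ℂ) by push_cast; ring]
  ring

theorem norm_ck (τ : ℂ) (a b t : ℝ) : ‖ck τ a b t‖ = |rk τ.im a b t| := by
  rw [ck_eq, norm_mul, Complex.norm_real, Real.norm_eq_abs]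
  have : ‖Complex.exp (2 * π * Complex.I * (a * b * τ.re))‖ = 1 := by
    rw [show (2 * π * Complex.I * (a * b * τ.re) : ℂ) = ((2 * π * (a * b * τ.re) : ℝ) : ℂ) *
      Complex.I by push_cast; ring]
    exact Complex.norm_exp_ofReal_mul_I _
  rw [this, one_mul]

theorem continuous_ck (τ : ℂ) (a b : ℝ) : Continuous (ck τ a b) := by
  unfold ck; fun_prop

/-- **the one variable integral of the unfolding** -/
theorem unf (τ : ℂ) (hτ : 0 < τ.im) (a b : ℝ) (ha : a ≠ 0) (hb : b ≠ 0) :
    Integrable (ck τ a b) ∧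
      (∫ t, ‖ck τ a b t‖) ≤ √(2 / τ.im) * exp (-(π * τ.im * |a * b|)) ∧
      ∫ t, ck τ a b t = if 0 < a * b then
        ((SignType.sign a : ℝ) : ℂ) * ((√τ.im)⁻¹ : ℝ) * Complex.exp (2 * π * Complex.I * (a * b) * τ)
        else 0 := by
  obtain ⟨h1, h2⟩ := int_rk hτ ha hb
  have hfun : ck τ a b = fun t => Complex.exp (2 * π * Complex.I * (a * b * τ.re)) *
      (rk τ.im a b t : ℂ) := funext (ck_eq τ a b)
  refine ⟨?_, ?_, ?_⟩
  · rw [hfun]; exact h1.ofReal.const_mul _
  · simp only [norm_ck]; exact h2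
  · rw [hfun, integral_const_mul, integral_complex_ofReal]
    split_ifs with h
    · rw [int_same hτ h]
      push_cast
      rw [show (2 * π * Complex.I * (a * b) * τ : ℂ) = 2 * π * Complex.I * (a * b * τ.re) +
        -(2 * π * τ.im * (a * b)) by
          conv_lhs => rw [← Complex.re_add_im τ]
          linear_combination (2 * π * (a * b) * τ.im : ℂ) * Complex.I_mul_I]
      rw [Complex.exp_add]
      ring
    · have hab : a * b < 0 := lt_of_le_of_ne (not_lt.1 h) (mul_ne_zero ha hb)
      rw [int_opposite hab]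
      simp

end Vale.Agent.P022.H443
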