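import Vale.Agent.P022.H455.Swap
import Vale.Agent.P022.H443.Unf

/-!
P022, stage 3 (real quadratic fields): the unfolding, letter-free.
-/

open Real MeasureTheory Set

noncomputable section

namespace Vale.Agent.P022.H443

variable {X : Type*} {A : Equiv.Perm X} {e1 e2 : X → ℝ} {L : ℝ}

theorem e_zpow (L : ℝ) {e : X → ℝ} (h : ∀ v, e (A v) = exp L * e v) (n : ℤ) (v : X) :
    e ((A ^ n) v) = exp (n * L) * e v := by
  induction n using Int.induction_on generalizing v with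
  | zero => simp
  | succ n ih =>
    rw [add_comm (n : ℤ) 1, zpow_one_add, Equiv.Perm.mul_apply, h, ih, ← mul_assoc, ← exp_add]
    congr 2
    push_cast
    ring
  | pred n ih =>
    have h1 : (A ^ (-(n : ℤ))) v = A ((A ^ (-(n : ℤ) - 1)) v) := by
      rw [← Equiv.Perm.mul_apply]
      congr 1
      rw [← zpow_one_add]
      congr 1
      ring
    have h2 := ih v
    rw [h1, h] at h2
    have h3 : exp L ≠ 0 := (exp_pos L).ne'
    have h4 : exp ((((-(n : ℤ) - 1 : ℤ) : ℝ)) * L) = exp (-L) * exp (((-(n : ℤ) : ℤ) : ℝ) * L) := by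
      rw [← exp_add]; congr 1; push_cast; ring
    rw [h4, mul_assoc, ← h2, ← mul_assoc, ← exp_add]
    simp

/-- the fundamental domain for the sign classes -/
def dm (e1 e2 : X → ℝ) (L : ℝ) : Set X := {v | 1 ≤ |e1 v / e2 v| ∧ |e1 v / e2 v| < exp L ^ 2}

theorem dom (hL : 0 < L) (h1 : ∀ v, e1 (A v) = exp L * e1 v)
    (h2 : ∀ v, e2 (A v) = exp (-L) * e2 v) (h0 : ∀ v, e1 v = 0 ↔ e2 v = 0) (v : X)
    (hv : e1 v ≠ 0) : ∃! n : ℤ, (A ^ n) v ∈ dm e1 e2 L := by
  have hv2 : e2 v ≠ 0 := fun h => hv ((h0 v).2 h)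
  have hr : 0 < |e1 v / e2 v| := abs_pos.2 (div_ne_zero hv hv2)
  set r := |e1 v / e2 v| with hrdef
  have key : ∀ n : ℤ, |e1 ((A ^ n) v) / e2 ((A ^ n) v)| = exp (Real.log r + n • (2 * L)) := by
    intro n
    rw [e_zpow L h1, e_zpow (-L) h2, exp_add, exp_log hr, mul_div_mul_comm, abs_mul, ← hrdef,
      abs_of_pos (div_pos (exp_pos _) (exp_pos _)), ← exp_sub, mul_comm]
    congr 2
    rw [zsmul_eq_mul]
    ring
  have hiff : ∀ n : ℤ, (A ^ n) v ∈ dm e1 e2 L ↔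
      Real.log r + n • (2 * L) ∈ Ico (0 : ℝ) (0 + 2 * L) := by
    intro n
    unfold dm
    rw [Set.mem_ofPred_eq, key, mem_Ico, zero_add, exp_sq, exp_lt_exp, ← Real.exp_zero, exp_le_exp]
  have := existsUnique_add_zsmul_mem_Ico (show 0 < 2 * L by linarith) (Real.log r) 0
  simpa only [hiff] using this

theorem ck_shift (τ : ℂ) (a b t L : ℝ) :
    ck τ (exp L * a) (exp (-L) * b) t = ck τ a b (t + L) := by
  unfold ck
  have e1 : exp L * a * exp t + exp (-L) * b * exp (-t) =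
      a * exp (t + L) + b * exp (-(t + L)) := by
    rw [neg_add, exp_add, exp_add]; ring
  have e2 : (exp L * a) ^ 2 * exp (2 * t) + (exp (-L) * b) ^ 2 * exp (-(2 * t)) =
      a ^ 2 * exp (2 * (t + L)) + b ^ 2 * exp (-(2 * (t + L))) := by
    rw [mul_pow, mul_pow, exp_sq, exp_sq', mul_add, neg_add, exp_add (2 * t), exp_add (-(2 * t))]
    ring
  have e3 : ((exp L * a : ℝ) : ℂ) * ((exp (-L) * b : ℝ) : ℂ) = (a : ℂ) * b := by
    have := exp_mul_neg L
    rw [← Complex.ofReal_mul, ← Complex.ofReal_mul]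
    congr 1
    linear_combination (a * b) * this
  rw [e1, e2, e3]

theorem ck_zero (τ : ℂ) (t : ℝ) : ck τ 0 0 t = 0 := by
  unfold ck; simp

/-- **[RUNF]** the unfolding: the integral over one period of the kernel sum is Hecke's series -/
theorem runf [Countable X] (hL : 0 < L) (h1 : ∀ v, e1 (A v) = exp L * e1 v)
    (h2 : ∀ v, e2 (A v) = exp (-L) * e2 v) (h0 : ∀ v, e1 v = 0 ↔ e2 v = 0) (f : X → ℂ)
    (hf : ∀ v, f (A v) = f v) (τ : ℂ) (hτ : 0 < τ.im)
    (hs : Summable fun v : (dm e1 e2 L ∩ {v | e1 v ≠ 0} : Set X) =>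
      ‖f v‖ * exp (-(π * τ.im * |e1 v * e2 v|))) :
    (Summable fun v : X => ∫ t in Ioc 0 L, ‖f v * ck τ (e1 v) (e2 v) t‖) ∧
    (∀ v : X, IntegrableOn (fun t => f v * ck τ (e1 v) (e2 v) t) (Ioc 0 L)) ∧
    HasSum (fun v : {v : X | 0 < e1 v * e2 v ∧ 1 ≤ |e1 v / e2 v| ∧ |e1 v / e2 v| < exp L ^ 2} =>
      f v * (((SignType.sign (e1 v) : ℝ) : ℂ) *
        Complex.exp (2 * π * Complex.I * ((e1 v : ℂ) * e2 v) * τ)))
      ((√τ.im : ℝ) * ∫ t in (0)..L, ∑' v, f v * ck τ (e1 v) (e2 v) t) := by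
  have hne : ∀ v, e1 v ≠ 0 → e2 v ≠ 0 := fun v h h' => h ((h0 v).2 h')
  have hsw := H455.swap (A := A) (L := L) (g := fun v t => f v * ck τ (e1 v) (e2 v) t)
    (D := dm e1 e2 L) (Z := {v | e1 v ≠ 0}) hL
    (by
      intro v
      simp only [Set.mem_ofPred_eq, h1]
      simp)
    (fun v hv => dom hL h1 h2 h0 v hv)
    (by
      intro v t
      simp only [hf, h1, h2, ck_shift])
    (by
      intro v hv t
      have hv' : e1 v = 0 := by simpa using hv
      simp only [hv', (h0 v).1 hv', ck_zero, mul_zero])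
    (by
      intro v hv
      exact (unf τ hτ _ _ hv.2 (hne v hv.2)).1.const_mul _)
    (by
      refine Summable.of_nonneg_of_le (fun v => integral_nonneg fun t => norm_nonneg _) ?_
        (hs.mul_left (√(2 / τ.im)))
      intro v
      simp only [norm_mul]
      rw [integral_const_mul]
      have := (unf τ hτ _ _ v.2.2 (hne v v.2.2)).2.1
      calc ‖f v‖ * ∫ t, ‖ck τ (e1 v) (e2 v) t‖
          ≤ ‖f v‖ * (√(2 / τ.im) * exp (-(π * τ.im * |e1 v * e2 v|))) :=
            mul_le_mul_of_nonneg_left this (norm_nonneg _)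
        _ = _ := by ring)
  refine ⟨hsw.1, hsw.2.1, ?_⟩
  have hsum := hsw.2.2.mul_left ((√τ.im : ℝ) : ℂ)
  have hy : ((√τ.im : ℝ) : ℂ) ≠ 0 := by
    rw [Ne, Complex.ofReal_eq_zero]
    exact (Real.sqrt_pos.2 hτ).ne'
  -- the summand as a function on `X`
  let h : X → ℂ := fun v => if 0 < e1 v * e2 v then f v * (((SignType.sign (e1 v) : ℝ) : ℂ) *
        Complex.exp (2 * π * Complex.I * ((e1 v : ℂ) * e2 v) * τ)) else 0
  have hterm : ∀ v : (dm e1 e2 L ∩ {v | e1 v ≠ 0} : Set X),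
      ((√τ.im : ℝ) : ℂ) * ∫ t, f v * ck τ (e1 v) (e2 v) t = h v := by
    intro v
    rw [integral_const_mul, (unf τ hτ _ _ v.2.2 (hne v v.2.2)).2.2]
    simp only [h]
    split_ifs with hpos
    · rw [Complex.ofReal_inv]
      field_simp
    · simp
  have hsum2 : HasSum (fun v : (dm e1 e2 L ∩ {v | e1 v ≠ 0} : Set X) => h v)
      (((√τ.im : ℝ) : ℂ) * ∫ t in (0)..L, ∑' v, f v * ck τ (e1 v) (e2 v) t) := by
    simpa only [hterm] using hsum
  have hS : HasSum (Set.indicator (dm e1 e2 L ∩ {v | e1 v ≠ 0}) h)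
      (((√τ.im : ℝ) : ℂ) * ∫ t in (0)..L, ∑' v, f v * ck τ (e1 v) (e2 v) t) :=
    (hasSum_subtype_iff_indicator).1 hsum2
  have hind : Set.indicator (dm e1 e2 L ∩ {v | e1 v ≠ 0}) h =
      Set.indicator {v : X | 0 < e1 v * e2 v ∧ 1 ≤ |e1 v / e2 v| ∧ |e1 v / e2 v| < exp L ^ 2} h := by
    funext v
    by_cases hp : 0 < e1 v * e2 v
    · have hv : e1 v ≠ 0 := by
        intro h'; simp [h'] at hp
      have hiff : v ∈ (dm e1 e2 L ∩ {v | e1 v ≠ 0} : Set X) ↔
          v ∈ {v : X | 0 < e1 v * e2 v ∧ 1 ≤ |e1 v / e2 v| ∧ |e1 v / e2 v| < exp L ^ 2} :=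
        ⟨fun hh => ⟨hp, hh.1.1, hh.1.2⟩, fun hh => ⟨⟨hh.2.1, hh.2.2⟩, hv⟩⟩
      by_cases hd : v ∈ (dm e1 e2 L ∩ {v | e1 v ≠ 0} : Set X)
      · rw [Set.indicator_of_mem hd, Set.indicator_of_mem (hiff.1 hd)]
      · rw [Set.indicator_of_notMem hd, Set.indicator_of_notMem (fun hh => hd (hiff.2 hh))]
    · have hz : h v = 0 := by simp only [h, if_neg hp]
      have : ∀ S : Set X, Set.indicator S h v = 0 := by
        intro S
        by_cases hm : v ∈ S
        · rw [Set.indicator_of_mem hm, hz]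
        · rw [Set.indicator_of_notMem hm]
      rw [this, this]
  rw [hind] at hS
  have hfin := (hasSum_subtype_iff_indicator).2 hS
  have hcongr : (fun v : {v : X | 0 < e1 v * e2 v ∧ 1 ≤ |e1 v / e2 v| ∧
      |e1 v / e2 v| < exp L ^ 2} => f v * (((SignType.sign (e1 v) : ℝ) : ℂ) *
        Complex.exp (2 * π * Complex.I * ((e1 v : ℂ) * e2 v) * τ))) = h ∘ Subtype.val := by
    funext v
    simp only [h, Function.comp_apply, if_pos v.2.1]
  rw [hcongr]
  exact hfin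

end Vale.Agent.P022.H443
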