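import Vale.Agent.P022.H477.RDef
import Vale.Agent.P022.H455.Dom
import Vale.Agent.P022.H443.Runf

/-!
P022, stage 3 (real quadratic fields): the unfolding in the letters of H352/Ker.lean.
-/

open Complex MeasureTheory Set
open scoped Real ComplexConjugate

noncomputable section

namespace Vale.Agent.P022.H443

open H352

variable {a b c : ℤ} {D : ℕ}

/-- the exponent -/
theorem expo (w P M S R : ℂ) (h1 : P - M = S) (h2 : P + M = R / 2) :
    2 * π * I * (w * P - conj w * M) = 2 * π * I * (S * w.re) - π * w.im * R := by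
  have hw' : conj w = w.re - w.im * I := by
    apply Complex.ext <;> simp
  have hw : (w.re : ℂ) + w.im * I = w := re_add_im w
  rw [hw']
  linear_combination (-(2 * π * I * P)) * hw + (2 * π * I * w.re) * h1 +
    (2 * π * I * (w.im * I)) * h2 + (π * w.im * R) * I_mul_I

/-- the kernel of `Q` is the one variable kernel -/
theorem kp_eq (a b : ℤ) (D : ℕ) (t : ℝ) (w : ℂ) (v : ℤ × ℤ) :
    kp a b D (Real.exp t) w v =
      (1 / 2 : ℂ) * ck w (e1 a b D v / √(a : ℝ)) (e2 a b D v / √(a : ℝ)) t := by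
  set α := e1 a b D v / √(a : ℝ) with hα
  set β := e2 a b D v / √(a : ℝ) with hβ
  have hp : Wp a b D (Real.exp t) v = (1 / 2) * (α * Real.exp t + β * Real.exp (-t)) := by
    unfold Wp
    rw [hα, hβ, ← Real.exp_neg]
    ring
  have hm : Wm a b D (Real.exp t) v = (1 / 2) * (α * Real.exp t - β * Real.exp (-t)) := by
    unfold Wm
    rw [hα, hβ, ← Real.exp_neg]
    ring
  have hE := exp_mul_neg t
  have h1 : Wp a b D (Real.exp t) v ^ 2 - Wm a b D (Real.exp t) v ^ 2 = α * β := by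
    rw [hp, hm]
    linear_combination (α * β) * hE
  have h2 : Wp a b D (Real.exp t) v ^ 2 + Wm a b D (Real.exp t) v ^ 2 =
      (α ^ 2 * Real.exp (2 * t) + β ^ 2 * Real.exp (-(2 * t))) / 2 := by
    rw [hp, hm, ← exp_sq, ← exp_sq']
    ring
  unfold kp ck
  have hexp : (2 * π * I * (w * (Wp a b D (Real.exp t) v : ℂ) ^ 2 -
      conj w * (Wm a b D (Real.exp t) v : ℂ) ^ 2)) =
      2 * π * I * ((α : ℂ) * β * w.re) -
        π * w.im * ((α ^ 2 * Real.exp (2 * t) + β ^ 2 * Real.exp (-(2 * t)) : ℝ) : ℂ) := by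
    have e1 : ((Wp a b D (Real.exp t) v : ℂ) ^ 2 - (Wm a b D (Real.exp t) v : ℂ) ^ 2) =
        (α : ℂ) * β := by exact_mod_cast congrArg (fun x : ℝ => (x : ℂ)) h1
    have e2 : ((Wp a b D (Real.exp t) v : ℂ) ^ 2 + (Wm a b D (Real.exp t) v : ℂ) ^ 2) =
        ((α ^ 2 * Real.exp (2 * t) + β ^ 2 * Real.exp (-(2 * t)) : ℝ) : ℂ) / 2 := by
      exact_mod_cast congrArg (fun x : ℝ => (x : ℂ)) h2
    exact expo w _ _ _ _ e1 e2
  rw [hexp, hp]
  push_cast
  ring

/-- the kernel of `-Q` is the one variable kernel -/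
theorem km_eq (a b : ℤ) (D : ℕ) (t : ℝ) (w : ℂ) (v : ℤ × ℤ) :
    km a b D (Real.exp t) w v =
      (1 / 2 : ℂ) * ck w (e1 a b D v / √(a : ℝ)) (-(e2 a b D v / √(a : ℝ))) t := by
  set α := e1 a b D v / √(a : ℝ) with hα
  set β := e2 a b D v / √(a : ℝ) with hβ
  have hp : Wp a b D (Real.exp t) v = (1 / 2) * (α * Real.exp t + β * Real.exp (-t)) := by
    unfold Wp
    rw [hα, hβ, ← Real.exp_neg]
    ring
  have hm : Wm a b D (Real.exp t) v = (1 / 2) * (α * Real.exp t - β * Real.exp (-t)) := by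
    unfold Wm
    rw [hα, hβ, ← Real.exp_neg]
    ring
  have hE := exp_mul_neg t
  have h1 : Wm a b D (Real.exp t) v ^ 2 - Wp a b D (Real.exp t) v ^ 2 = α * -β := by
    rw [hp, hm]
    linear_combination (-(α * β)) * hE
  have h2 : Wm a b D (Real.exp t) v ^ 2 + Wp a b D (Real.exp t) v ^ 2 =
      (α ^ 2 * Real.exp (2 * t) + (-β) ^ 2 * Real.exp (-(2 * t))) / 2 := by
    rw [hp, hm, ← exp_sq, ← exp_sq']
    ring
  unfold km ck
  have hexp : (2 * π * I * (w * (Wm a b D (Real.exp t) v : ℂ) ^ 2 -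
      conj w * (Wp a b D (Real.exp t) v : ℂ) ^ 2)) =
      2 * π * I * ((α : ℂ) * ((-β : ℝ) : ℂ) * w.re) -
        π * w.im * ((α ^ 2 * Real.exp (2 * t) + (-β) ^ 2 * Real.exp (-(2 * t)) : ℝ) : ℂ) := by
    have e1 : ((Wm a b D (Real.exp t) v : ℂ) ^ 2 - (Wp a b D (Real.exp t) v : ℂ) ^ 2) =
        (α : ℂ) * ((-β : ℝ) : ℂ) := by exact_mod_cast congrArg (fun x : ℝ => (x : ℂ)) h1
    have e2 : ((Wm a b D (Real.exp t) v : ℂ) ^ 2 + (Wp a b D (Real.exp t) v : ℂ) ^ 2) =
        ((α ^ 2 * Real.exp (2 * t) + (-β) ^ 2 * Real.exp (-(2 * t)) : ℝ) : ℂ) / 2 := by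
      exact_mod_cast congrArg (fun x : ℝ => (x : ℂ)) h2
    exact expo w _ _ _ _ e1 e2
  rw [hexp, hm]
  push_cast
  ring

/-- `e1 e2 = a Q` -/
theorem e1_mul_e2 (h : b ^ 2 - 4 * a * c = D) (v : ℤ × ℤ) :
    e1 a b D v * e2 a b D v = a * Qf a b c v := by
  have hD : √(D : ℝ) ^ 2 = D := Real.sq_sqrt (Nat.cast_nonneg D)
  have h' : (b : ℝ) ^ 2 - 4 * a * c = D := by exact_mod_cast h
  simp only [e1, e2, Qf]
  push_cast
  linear_combination (-(v.2 : ℝ) ^ 2 / 4) * hD + ((v.2 : ℝ) ^ 2 / 4) * h'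

theorem irr_sqrt (hD : ¬ IsSquare D) : Irrational √(D : ℝ) := by
  rw [irrational_sqrt_natCast_iff]
  exact hD

theorem e1_eq_zero (ha : 0 < a) (hD : ¬ IsSquare D) (v : ℤ × ℤ) : e1 a b D v = 0 ↔ v = 0 := by
  constructor
  · intro h
    have hi := irr_sqrt hD
    have hv2 : v.2 = 0 := by
      by_contra hv2
      have hv2' : (v.2 : ℝ) ≠ 0 := by exact_mod_cast hv2
      apply hi
      refine ⟨(-(2 * a * v.1 + b * v.2) / v.2 : ℚ), ?_⟩
      push_cast
      unfold e1 at h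
      field_simp
      linear_combination (-2 : ℝ) * h
    have hv1 : v.1 = 0 := by
      unfold e1 at h
      rw [hv2] at h
      have ha' : (a : ℝ) ≠ 0 := by exact_mod_cast ha.ne'
      simpa [ha'] using h
    exact Prod.ext hv1 hv2
  · rintro rfl; simp [e1]

theorem e2_eq_zero (ha : 0 < a) (hD : ¬ IsSquare D) (v : ℤ × ℤ) : e2 a b D v = 0 ↔ v = 0 := by
  constructor
  · intro h
    have hi := irr_sqrt hD
    have hv2 : v.2 = 0 := by
      by_contra hv2
      have hv2' : (v.2 : ℝ) ≠ 0 := by exact_mod_cast hv2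
      apply hi
      refine ⟨((2 * a * v.1 + b * v.2) / v.2 : ℚ), ?_⟩
      push_cast
      unfold e2 at h
      field_simp
      linear_combination (2 : ℝ) * h
    have hv1 : v.1 = 0 := by
      unfold e2 at h
      rw [hv2] at h
      have ha' : (a : ℝ) ≠ 0 := by exact_mod_cast ha.ne'
      simpa [ha'] using h
    exact Prod.ext hv1 hv2
  · rintro rfl; simp [e2]

/-- a periodic function is bounded -/
theorem per_bdd {m : ℕ} (hm : 0 < m) {f : ℤ × ℤ → ℂ} (hf : Per m f) :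
    ∃ B : ℝ, 0 ≤ B ∧ ∀ v, ‖f v‖ ≤ B := by
  have hm' : (0 : ℤ) < m := by exact_mod_cast hm
  refine ⟨∑ i ∈ Finset.range m, ∑ j ∈ Finset.range m, ‖f ((i : ℤ), (j : ℤ))‖, by positivity,
    fun v => ?_⟩
  have h1 : f v = f (v.1 % m, v.2 % m) := by
    have := hf (v.1 % m, v.2 % m) (v.1 / m, v.2 / m)
    rw [← this]
    congr 1
    ext
    · simp only [Prod.fst_add, Prod.smul_fst, smul_eq_mul]
      exact (Int.emod_add_mul_ediv v.1 m).symm
    · simp only [Prod.snd_add, Prod.smul_snd, smul_eq_mul]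
      exact (Int.emod_add_mul_ediv v.2 m).symm
  have hx := Int.emod_nonneg v.1 hm'.ne'
  have hy := Int.emod_nonneg v.2 hm'.ne'
  have hx' := Int.emod_lt_of_pos v.1 hm'
  have hy' := Int.emod_lt_of_pos v.2 hm'
  lift v.1 % m to ℕ using hx with i hi
  lift v.2 % m to ℕ using hy with j hj
  rw [h1]
  have hi' : i ∈ Finset.range m := Finset.mem_range.2 (by exact_mod_cast hx')
  have hj' : j ∈ Finset.range m := Finset.mem_range.2 (by exact_mod_cast hy')
  refine le_trans ?_ (Finset.single_le_sum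
    (f := fun i : ℕ => ∑ j ∈ Finset.range m, ‖f ((i : ℤ), (j : ℤ))‖)
    (fun i _ => Finset.sum_nonneg fun j _ => norm_nonneg _) hi')
  exact Finset.single_le_sum (f := fun j : ℕ => ‖f ((i : ℤ), (j : ℤ))‖)
    (fun j _ => norm_nonneg _) hj'

/-- the unfolding, both signs -/
theorem runf_sign (ha : 0 < a) (hD : ¬ IsSquare D) (h : b ^ 2 - 4 * a * c = D) {u : ℝ}
    {A : (ℤ × ℤ) ≃+ (ℤ × ℤ)} (hU : H477.Unt a b D u A) {m : ℕ} (hm : 0 < m) {f : ℤ × ℤ → ℂ}
    (hf : Per m f) (hfA : ∀ v, f (A v) = f v) {w : ℂ} (hw : 0 < w.im) {s : ℤ}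
    (hs : s = 1 ∨ s = -1) :
    (Summable fun v : ℤ × ℤ => ∫ t in Ioc 0 (Real.log u), ‖f v * ck w (e1 a b D v / √(a : ℝ))
      (s * (e2 a b D v / √(a : ℝ))) t‖) ∧
    HasSum (fun v => H477.hC a b c D u s f v * cexp (2 * π * I * ((s * Qf a b c v : ℤ) : ℂ) * w))
      ((√w.im : ℝ) * ∫ t in (0 : ℝ)..Real.log u, ∑' v, f v * ck w (e1 a b D v / √(a : ℝ))
        (s * (e2 a b D v / √(a : ℝ))) t) := by
  have ha' : (0 : ℝ) < a := by exact_mod_cast ha
  have hsa : 0 < √(a : ℝ) := Real.sqrt_pos.2 ha'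
  have hu0 : 0 < u := lt_trans one_pos hU.one_lt
  have hL : 0 < Real.log u := Real.log_pos hU.one_lt
  have hexp : Real.exp (Real.log u) = u := Real.exp_log hu0
  have hexp' : Real.exp (-Real.log u) = u⁻¹ := by rw [Real.exp_neg, hexp]
  have hs2 : (s : ℝ) * s = 1 := by rcases hs with rfl | rfl <;> norm_num
  have hs0 : (s : ℝ) ≠ 0 := by rcases hs with rfl | rfl <;> norm_num
  have hsabs : |(s : ℝ)| = 1 := by rcases hs with rfl | rfl <;> norm_num
  set x1 : ℤ × ℤ → ℝ := fun v => e1 a b D v / √(a : ℝ) with hx1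
  set x2 : ℤ × ℤ → ℝ := fun v => s * (e2 a b D v / √(a : ℝ)) with hx2
  have hprod : ∀ v, x1 v * x2 v = ((s * Qf a b c v : ℤ) : ℝ) := by
    intro v
    have h1 := e1_mul_e2 h v
    have h2 : √(a : ℝ) * √(a : ℝ) = a := Real.mul_self_sqrt ha'.le
    have h3 : x1 v * x2 v = s * (e1 a b D v * e2 a b D v) / (√(a : ℝ) * √(a : ℝ)) := by
      simp only [hx1, hx2]
      ring
    rw [h3, h1, h2]
    push_cast
    field_simp
  have hz1 : ∀ v, x1 v = 0 ↔ v = 0 := by
    intro v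
    simp only [hx1, div_eq_zero_iff, hsa.ne', or_false]
    exact e1_eq_zero ha hD v
  have hz2 : ∀ v, x2 v = 0 ↔ v = 0 := by
    intro v
    simp only [hx2, mul_eq_zero, div_eq_zero_iff, hsa.ne', hs0, or_false, false_or]
    exact e2_eq_zero ha hD v
  have habs : ∀ v, |x1 v / x2 v| = |e1 a b D v| / |e2 a b D v| := by
    intro v
    simp only [hx1, hx2]
    rw [abs_div, abs_div, abs_mul, abs_div, hsabs, one_mul, abs_of_pos hsa]
    exact div_div_div_cancel_right₀ hsa.ne' _ _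
  have hdm : ∀ v, v ≠ 0 → ((1 ≤ |x1 v / x2 v| ∧ |x1 v / x2 v| < Real.exp (Real.log u) ^ 2) ↔
      (|e2 a b D v| ≤ |e1 a b D v| ∧ |e1 a b D v| < u ^ 2 * |e2 a b D v|)) := by
    intro v hv
    have h2 : 0 < |e2 a b D v| := abs_pos.2 fun h => hv ((e2_eq_zero ha hD v).1 h)
    rw [habs, hexp, one_le_div₀ h2, div_lt_iff₀ h2]
  obtain ⟨B, hB0, hB⟩ := per_bdd hm hf
  obtain ⟨C, hC0, hC⟩ := H455.cone_le (a := (a : ℝ)) (b := (b : ℝ)) (s := √(D : ℝ)) (η := u) ha'
    (Real.sqrt_pos.2 (by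
      rcases Nat.eq_zero_or_pos D with rfl | h0
      · exact absurd (IsSquare.zero) hD
      · exact_mod_cast h0)) hU.one_lt
  have hsum : Summable fun v : (dm x1 x2 (Real.log u) ∩ {v | x1 v ≠ 0} : Set (ℤ × ℤ)) =>
      ‖f v‖ * Real.exp (-(π * w.im * |x1 v * x2 v|)) := by
    have hq := H455.sumQ (S := dm x1 x2 (Real.log u) ∩ {v | x1 v ≠ 0})
      (q := fun v => |x1 v * x2 v|) (C := C * a) (by positivity)
      (by
        intro v hv
        have hv0 : v ≠ 0 := fun h => hv.2 ((hz1 v).2 h)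
        have hd := (hdm v hv0).1 hv.1
        have h5 := hC v.1 v.2 hd.1 hd.2
        have h6 : |((a : ℝ) * v.1 + (b + √(D : ℝ)) / 2 * v.2) *
            (a * v.1 + (b - √(D : ℝ)) / 2 * v.2)| = a * |x1 v * x2 v| := by
          have h7 := e1_mul_e2 h v
          simp only [e1, e2] at h7
          rw [h7, hprod]
          push_cast
          rw [abs_mul, abs_mul, hsabs, one_mul, abs_of_pos ha']
        rw [h6] at h5
        linarith) 0 (y := w.im / 2) (by linarith)
    refine Summable.of_nonneg_of_le (fun v => by positivity) ?_ (hq.mul_left B)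
    intro v
    rw [pow_zero, one_mul]
    have h8 : -(2 * π * (w.im / 2) * |x1 v * x2 v|) = -(π * w.im * |x1 v * x2 v|) := by ring
    rw [h8]
    exact mul_le_mul_of_nonneg_right (hB v) (Real.exp_pos _).le
  have hmain := runf (A := A.toEquiv) (e1 := x1) (e2 := x2) (L := Real.log u) hL
    (by
      intro v
      simp only [hx1]
      rw [hexp]
      have := hU.h1 v
      simp only [AddEquiv.toEquiv_eq_coe, AddEquiv.coe_toEquiv] at *
      rw [this]; ring)
    (by
      intro v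
      simp only [hx2]
      rw [hexp']
      have := hU.h2 v
      simp only [AddEquiv.toEquiv_eq_coe, AddEquiv.coe_toEquiv] at *
      rw [this]; ring)
    (fun v => by rw [hz1, hz2]) f (fun v => hfA v) w hw hsum
  refine ⟨hmain.1, ?_⟩
  have h9 := (hasSum_subtype_iff_indicator (f := fun v : ℤ × ℤ =>
    f v * (((SignType.sign (x1 v) : ℝ) : ℂ) *
        cexp (2 * π * I * ((x1 v : ℂ) * x2 v) * w)))).1 hmain.2.2
  convert h9 using 1
  funext v
  by_cases hv : v ∈ H477.FD a b c D u s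
  · have hQ : 0 < s * Qf a b c v := hv.1
    have hx : 0 < x1 v * x2 v := by rw [hprod]; exact_mod_cast hQ
    have hv0 : v ≠ 0 := by
      rintro rfl
      simp [(hz1 0).2 rfl] at hx
    have hmem : v ∈ {v : ℤ × ℤ | 0 < x1 v * x2 v ∧ 1 ≤ |x1 v / x2 v| ∧
        |x1 v / x2 v| < Real.exp (Real.log u) ^ 2} := ⟨hx, (hdm v hv0).2 hv.2⟩
    rw [Set.indicator_of_mem hmem]
    unfold H477.hC
    rw [Set.indicator_of_mem hv]
    have hsg : SignType.sign (x1 v) = SignType.sign (e1 a b D v) := by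
      simp only [hx1, div_eq_mul_inv]
      rw [sign_mul, sign_pos (inv_pos.2 hsa), mul_one]
    have hc2 : ((x1 v : ℂ) * x2 v) = ((s * Qf a b c v : ℤ) : ℂ) := by
      rw [← Complex.ofReal_mul, hprod]
      push_cast
      rfl
    rw [hsg, hc2, mul_assoc]
    congr 2
    rcases lt_trichotomy (e1 a b D v) 0 with h0 | h0 | h0
    · simp [sign_neg h0]
    · simp [h0]
    · simp [sign_pos h0]
  · have hmem : v ∉ {v : ℤ × ℤ | 0 < x1 v * x2 v ∧ 1 ≤ |x1 v / x2 v| ∧
        |x1 v / x2 v| < Real.exp (Real.log u) ^ 2} := by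
      intro hm'
      have hx : 0 < x1 v * x2 v := hm'.1
      have hv0 : v ≠ 0 := by
        rintro rfl
        simp [(hz1 0).2 rfl] at hx
      refine hv ⟨?_, (hdm v hv0).1 hm'.2⟩
      rw [hprod] at hx
      exact_mod_cast hx
    rw [Set.indicator_of_notMem hmem]
    unfold H477.hC
    rw [Set.indicator_of_notMem hv, zero_mul]

/-- **[RUNF]** -/
theorem RUNF : H477.RUNFStmt := by
  intro a b c D ha hD h u A hU m hm f hf hfA w hw
  have hy : ((√w.im : ℝ) : ℂ) ≠ 0 := by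
    rw [Ne, Complex.ofReal_eq_zero]
    exact (Real.sqrt_pos.2 hw).ne'
  constructor
  · have h1 := (runf_sign ha hD h hU hm hf hfA hw (Or.inl rfl)).2.tsum_eq
    have h2 : ∀ t : ℝ, Tp a b D (Real.exp t) f w = (1 / 2 : ℂ) * ∑' v, f v *
        ck w (e1 a b D v / √(a : ℝ)) (((1 : ℤ) : ℝ) * (e2 a b D v / √(a : ℝ))) t := by
      intro t
      unfold Tp
      rw [← tsum_mul_left]
      refine tsum_congr fun v => ?_
      rw [kp_eq, Int.cast_one, one_mul]
      ring
    simp only [h2]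
    rw [intervalIntegral.integral_const_mul]
    unfold H477.hR
    rw [h1]
    field_simp
  · have h1 := (runf_sign ha hD h hU hm hf hfA hw (Or.inr rfl)).2.tsum_eq
    have h2 : ∀ t : ℝ, Tm a b D (Real.exp t) f w = (1 / 2 : ℂ) * ∑' v, f v *
        ck w (e1 a b D v / √(a : ℝ)) (((-1 : ℤ) : ℝ) * (e2 a b D v / √(a : ℝ))) t := by
      intro t
      unfold Tm
      rw [← tsum_mul_left]
      refine tsum_congr fun v => ?_
      rw [km_eq, Int.cast_neg, Int.cast_one, neg_one_mul]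
      ring
    simp only [h2]
    rw [intervalIntegral.integral_const_mul]
    unfold H477.hR
    rw [h1]
    field_simp

end Vale.Agent.P022.H443
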