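import Mathlib

/-!
# P022-L3: the polynomials `N = Q^3`, `D` with `j = N(p) / D(p)` (helper443)
-/

open Polynomial

noncomputable section

namespace Vale.Agent.P022.H443

/-- `Q` -/
def QP : ℂ[X] := 5 * (1 + 4 * X) ^ 4 + 12 * (1 + 4 * X) ^ 3 * (1 - 2 * X)
  - 16 * (1 + 4 * X) * (1 - 2 * X) ^ 3

/-- the denominator -/
def DP : ℂ[X] := X * (8 * X - 1) ^ 6 * (1 + X) ^ 3

lemma eval_QP (a : ℂ) : QP.eval a = 5 * (1 + 4 * a) ^ 4 + 12 * (1 + 4 * a) ^ 3 * (1 - 2 * a)
    - 16 * (1 + 4 * a) * (1 - 2 * a) ^ 3 := by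
  simp [QP]

lemma eval_DP (a : ℂ) : DP.eval a = a * (8 * a - 1) ^ 6 * (1 + a) ^ 3 := by
  simp [DP]

lemma cop_of_eval {P : ℂ[X]} {a : ℂ} (h : P.eval a ≠ 0) : IsCoprime P (X - C a) := by
  have hi : Irreducible (X - C a) := irreducible_X_sub_C a
  exact ((hi.coprime_iff_not_dvd).2 (fun hd => h (dvd_iff_isRoot.1 hd))).symm

theorem cop_QD : IsCoprime QP DP := by
  have h0 : IsCoprime QP X := by
    have := cop_of_eval (P := QP) (a := 0) (by rw [eval_QP]; norm_num)
    simpa using this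
  have h1 : IsCoprime QP (8 * X - 1) := by
    have h := cop_of_eval (P := QP) (a := 1 / 8) (by rw [eval_QP]; norm_num)
    have e : (8 * X - 1 : ℂ[X]) = C 8 * (X - C (1 / 8)) := by
      have e8 : (C (8 : ℂ) : ℂ[X]) = 8 := map_ofNat C 8
      rw [mul_sub, ← C_mul, e8]
      norm_num
    rw [e]
    have hu : IsUnit (C (8 : ℂ)) := isUnit_C.2 (by norm_num)
    exact (isCoprime_mul_unit_left_right hu _ _).2 h
  have h2 : IsCoprime QP (1 + X) := by
    have h := cop_of_eval (P := QP) (a := -1) (by rw [eval_QP]; norm_num)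
    have e : (1 + X : ℂ[X]) = X - C (-1) := by
      rw [C_neg, C_1]; ring
    rw [e]; exact h
  exact IsCoprime.mul_right (IsCoprime.mul_right h0 h1.pow_right) h2.pow_right

theorem cop_ND : IsCoprime (QP ^ 3) DP := cop_QD.pow_left

lemma QP_eq : QP = 256 * X ^ 4 + 256 * X ^ 3 + 960 * X ^ 2 + 232 * X + 1 := by
  rw [QP]; ring

theorem natDegree_QP : QP.natDegree = 4 := by
  rw [QP_eq]; compute_degree!

theorem natDegree_N : (QP ^ 3).natDegree = 12 := by
  rw [natDegree_pow, natDegree_QP]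

theorem natDegree_D : DP.natDegree = 10 := by
  have h1 : (8 * X - 1 : ℂ[X]).natDegree = 1 := by compute_degree!
  have h2 : (1 + X : ℂ[X]).natDegree = 1 := by compute_degree!
  have n1 : (8 * X - 1 : ℂ[X]) ≠ 0 := by
    intro h; rw [h] at h1; simp at h1
  have n2 : (1 + X : ℂ[X]) ≠ 0 := by
    intro h; rw [h] at h2; simp at h2
  rw [DP, natDegree_mul (mul_ne_zero X_ne_zero (pow_ne_zero _ n1)) (pow_ne_zero _ n2),
    natDegree_mul X_ne_zero (pow_ne_zero _ n1), natDegree_pow, natDegree_pow, h1, h2, natDegree_X]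

theorem max_deg : max (QP ^ 3).natDegree DP.natDegree = 12 := by
  rw [natDegree_N, natDegree_D]; rfl

lemma aeval_QP {A : Type*} [CommRing A] [Algebra ℂ A] (p : A) :
    aeval p QP = 5 * (1 + 4 * p) ^ 4 + 12 * (1 + 4 * p) ^ 3 * (1 - 2 * p)
      - 16 * (1 + 4 * p) * (1 - 2 * p) ^ 3 := by
  simp only [QP, map_add, map_sub, map_mul, map_pow, map_one, aeval_X, map_ofNat]

lemma aeval_DP {A : Type*} [CommRing A] [Algebra ℂ A] (p : A) :
    aeval p DP = p * (8 * p - 1) ^ 6 * (1 + p) ^ 3 := by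
  simp only [DP, map_add, map_sub, map_mul, map_pow, map_one, aeval_X, map_ofNat]

end Vale.Agent.P022.H443
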