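import Vale.Agent.P022.H443.Tame0
import Vale.Agent.P022.H20.GalDef

/-!
# The tame relation in the 2-group quotients of `G_ℚ`

`f : G_ℚ → H` has an open kernel and the elements of its image have 2-power order; `P` is a prime
ideal of the ring of algebraic integers above the odd prime `ℓ`.
* `tame`: `f(σ) f(τ) = f(τ)^ℓ f(σ)` for `σ` a Frobenius element and `τ` in the inertia group.
* `exists_gen`: there is ONE `τ` in the inertia group of `P` whose image generates the image of the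
  inertia group in every such quotient.
-/

open NumberField

noncomputable section

namespace Vale.Agent.P022.H443

lemma algQb : Algebra.IsAlgebraic ℚ Qb := AlgebraicClosure.isAlgebraic ℚ

lemma galQb : IsGalois ℚ Qb := by
  have := algQb
  have : IsAlgClosure ℚ Qb := ⟨inferInstance, inferInstance⟩
  exact IsAlgClosure.isGalois ℚ Qb

lemma faithful_ringOfIntegers (F : Type*) [Field F] [NumberField F] :
    FaithfulSMul (F ≃ₐ[ℚ] F) (𝓞 F) := by
  refine ⟨fun {g h} hgh => ?_⟩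
  apply AlgEquiv.ext
  intro x
  obtain ⟨a, b, hb, rfl⟩ := IsFractionRing.div_surjective (A := 𝓞 F) x
  have ha := congrArg (algebraMap (𝓞 F) F) (hgh a)
  have hb := congrArg (algebraMap (𝓞 F) F) (hgh b)
  have e : ∀ (g : F ≃ₐ[ℚ] F) (a : 𝓞 F), algebraMap (𝓞 F) F (g • a) = g (algebraMap (𝓞 F) F a) :=
    fun g a => rfl
  rw [e, e] at ha hb
  rw [map_div₀, map_div₀, ha, hb]

/-- the inertia subgroup of `G_ℚ` at `P` -/
def InP (P : Ideal (𝓞 Qb)) (g : GQ) : Prop := ∀ x : 𝓞 Qb, g • x - x ∈ P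

section

variable {H : Type*} [Group H] (f : GQ →* H)

/-- the number field cut out by `f` -/
def cut : IntermediateField ℚ Qb := IntermediateField.fixedField f.ker

variable {f}

lemma cut_fix (hf : IsOpen (f.ker : Set GQ)) : (cut f).fixingSubgroup = f.ker := by
  have := galQb
  exact InfiniteGalois.fixingSubgroup_fixedField
    (⟨f.ker, Subgroup.isClosed_of_isOpen _ hf⟩ : ClosedSubgroup GQ)

lemma cut_fin (hf : IsOpen (f.ker : Set GQ)) : FiniteDimensional ℚ (cut f) := by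
  have := galQb
  rw [← InfiniteGalois.isOpen_iff_finite]
  have h := cut_fix hf
  have h' : (cut f).fixingSubgroup.carrier = (f.ker : Set GQ) := by rw [h]; rfl
  rw [h']; exact hf

lemma cut_gal (hf : IsOpen (f.ker : Set GQ)) : IsGalois ℚ (cut f) := by
  have := galQb
  have h : @IsGalois ℚ _ (cut f) _ (cut f).algebra' := by
    rw [← InfiniteGalois.normal_iff_isGalois, cut_fix hf]
    infer_instance
  have e : (cut f).algebra' = DivisionRing.toRatAlgebra := Subsingleton.elim _ _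
  rw [e] at h
  exact h

/-- everything needed about the number field cut out by `f` -/
theorem cut_data (hf : IsOpen (f.ker : Set GQ)) (h2 : ∀ g, ∃ k : ℕ, f g ^ (2 ^ k) = 1)
    {ℓ : ℕ} (hℓ : ℓ.Prime) (hℓ2 : ℓ ≠ 2) {P : Ideal (𝓞 Qb)} (hP : P.IsPrime)
    (hPℓ : (ℓ : 𝓞 Qb) ∈ P) :
    ∃ (R G : Type) (_ : CommRing R) (_ : IsDedekindDomain R) (_ : Group G) (_ : Finite G)
      (_ : MulSemiringAction G R) (_ : FaithfulSMul G R) (Q : Ideal R) (_ : Q.IsPrime)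
      (q : GQ →* G), Q ≠ ⊥ ∧ (2 : R) ∉ Q ∧ q.ker = f.ker ∧ (∀ g : G, ∃ k : ℕ, g ^ (2 ^ k) = 1) ∧
      (∀ g : GQ, InP P g → InI Q (q g)) ∧
      (∀ g : GQ, (∀ x : 𝓞 Qb, g • x - x ^ ℓ ∈ P) → ∀ x : R, q g • x - x ^ ℓ ∈ Q) := by
  have := galQb
  have := cut_fin hf
  have := cut_gal hf
  have : NumberField (cut f) := { to_charZero := inferInstance, to_finiteDimensional := inferInstance }
  let j : cut f →+* Qb := algebraMap (cut f) Qb
  let m : 𝓞 (cut f) →+* 𝓞 Qb := RingOfIntegers.mapRingHom j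
  let q : GQ →* (cut f ≃ₐ[ℚ] cut f) := AlgEquiv.restrictNormalHom (cut f)
  have hq : ∀ (g : GQ) (x : cut f), ((q g x : cut f) : Qb) = g x := fun g x =>
    AlgEquiv.restrictNormal_commutes g (cut f) x
  have hm : ∀ (g : GQ) (x : 𝓞 (cut f)), m (q g • x) = g • m x := by
    intro g x
    apply RingOfIntegers.ext
    exact hq g _
  have hker : q.ker = f.ker := by
    rw [← cut_fix hf]
    ext g
    rw [MonoidHom.mem_ker, IntermediateField.mem_fixingSubgroup_iff]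
    constructor
    · intro h x hx
      have h1 := hq g ⟨x, hx⟩
      rw [h] at h1
      exact h1.symm
    · intro h
      apply AlgEquiv.ext
      intro x
      apply Subtype.ext
      rw [hq]
      exact h x x.2
  have hQp : (P.comap m).IsPrime := Ideal.comap_isPrime m P
  refine ⟨𝓞 (cut f), (cut f ≃ₐ[ℚ] cut f), inferInstance, inferInstance, inferInstance,
    inferInstance, inferInstance, faithful_ringOfIntegers _, P.comap m, hQp, q, ?_, ?_, hker, ?_,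
    ?_, ?_⟩
  · intro h
    have h1 : (ℓ : 𝓞 (cut f)) ∈ P.comap m := by
      rw [Ideal.mem_comap, map_natCast]; exact hPℓ
    rw [h, Ideal.mem_bot] at h1
    exact hℓ.ne_zero (by exact_mod_cast h1)
  · intro h
    rw [Ideal.mem_comap, map_ofNat] at h
    apply hP.ne_top
    rw [Ideal.eq_top_iff_one]
    obtain ⟨n, hn⟩ := hℓ.odd_of_ne_two hℓ2
    have h3 : (ℓ : 𝓞 Qb) - 2 * (n : 𝓞 Qb) ∈ P := P.sub_mem hPℓ (P.mul_mem_right _ h)
    have e : (ℓ : 𝓞 Qb) - 2 * (n : 𝓞 Qb) = 1 := by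
      rw [hn]; push_cast; ring
    rwa [e] at h3
  · intro g
    obtain ⟨g', rfl⟩ := AlgEquiv.restrictNormalHom_surjective (F := ℚ) (K₁ := cut f) Qb g
    obtain ⟨k, hk⟩ := h2 g'
    refine ⟨k, ?_⟩
    have h3 : g' ^ (2 ^ k) ∈ q.ker := by
      rw [hker, MonoidHom.mem_ker, map_pow]; exact hk
    rw [MonoidHom.mem_ker, map_pow] at h3
    exact h3
  · intro g hg x
    rw [Ideal.mem_comap, map_sub, hm]
    exact hg _
  · intro g hg x
    rw [Ideal.mem_comap, map_sub, hm, map_pow]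
    exact hg _

/-- **the tame relation** -/
theorem tame (hf : IsOpen (f.ker : Set GQ)) (h2 : ∀ g, ∃ k : ℕ, f g ^ (2 ^ k) = 1)
    {ℓ : ℕ} (hℓ : ℓ.Prime) (hℓ2 : ℓ ≠ 2) {P : Ideal (𝓞 Qb)} (hP : P.IsPrime)
    (hPℓ : (ℓ : 𝓞 Qb) ∈ P) {σ τ : GQ} (hσ : ∀ x : 𝓞 Qb, σ • x - x ^ ℓ ∈ P) (hτ : InP P τ) :
    f σ * f τ = f τ ^ ℓ * f σ := by
  obtain ⟨R, G, _, _, _, _, _, _, Q, _, q, hQ0, hQ2, hker, hG2, hin, hfr⟩ :=
    cut_data hf h2 hℓ hℓ2 hP hPℓ
  have h := tame_rel hG2 hQ0 hQ2 hℓ.ne_zero (hfr σ hσ) (hin τ hτ)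
  have h1 : (σ * τ) * (τ ^ ℓ * σ)⁻¹ ∈ q.ker := by
    rw [MonoidHom.mem_ker, map_mul, map_inv, mul_inv_eq_one, map_mul, map_mul, map_pow]
    exact h
  rw [hker, MonoidHom.mem_ker, map_mul, map_inv, mul_inv_eq_one, map_mul, map_mul, map_pow] at h1
  exact h1

/-- inertia elements, as a subgroup -/
def inP (P : Ideal (𝓞 Qb)) : Subgroup GQ where
  carrier := {g | InP P g}
  mul_mem' {g h} hg hh := by
    intro x
    have := P.add_mem (hg (h • x)) (hh x)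
    rw [mul_smul]
    simpa using this
  one_mem' := by intro x; simp
  inv_mem' {g} hg := by
    intro x
    have h := hg (g⁻¹ • x)
    rw [smul_inv_smul, ← neg_mem_iff, neg_sub] at h
    exact h

/-- **tame inertia is cyclic**: some `τ` of the inertia group generates the image of it -/
theorem tame_cyclic (hf : IsOpen (f.ker : Set GQ)) (h2 : ∀ g, ∃ k : ℕ, f g ^ (2 ^ k) = 1)
    {ℓ : ℕ} (hℓ : ℓ.Prime) (hℓ2 : ℓ ≠ 2) {P : Ideal (𝓞 Qb)} (hP : P.IsPrime)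
    (hPℓ : (ℓ : 𝓞 Qb) ∈ P) :
    ∃ τ ∈ inP P, ∀ g ∈ inP P, ∃ n : ℕ, f g = f τ ^ n := by
  classical
  obtain ⟨R, G, _, _, _, _, _, _, Q, _, q, hQ0, hQ2, hker, hG2, hin, hfr⟩ :=
    cut_data hf h2 hℓ hℓ2 hP hPℓ
  have hc := inert_cyclic hG2 hQ0 hQ2
  -- the image of `inP P` in `inert Q`
  let S : Subgroup (inert Q : Subgroup G) :=
    ((inP P).map q).subgroupOf (inert Q)
  have hS : IsCyclic S := inferInstance
  obtain ⟨⟨s, hs⟩, hgen⟩ := hS.exists_generator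
  obtain ⟨τ, hτ, hτs⟩ := Subgroup.mem_map.1 (Subgroup.mem_subgroupOf.1 hs)
  refine ⟨τ, hτ, fun g hg => ?_⟩
  have hgi : q g ∈ inert Q := hin g hg
  have hgS : (⟨q g, hgi⟩ : (inert Q : Subgroup G)) ∈ S :=
    Subgroup.mem_subgroupOf.2 (Subgroup.mem_map.2 ⟨g, hg, rfl⟩)
  have hz := hgen ⟨⟨q g, hgi⟩, hgS⟩
  rw [mem_zpowers_iff_mem_range_orderOf] at hz
  obtain ⟨n, -, hn⟩ := Finset.mem_image.1 hz
  refine ⟨n, ?_⟩
  have hn' : q τ ^ n = q g := by
    have h3 := congrArg (fun z : S => ((z : (inert Q : Subgroup G)) : G)) hn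
    simp only [SubmonoidClass.coe_pow] at h3
    rw [hτs]
    exact h3
  have h1 : g * (τ ^ n)⁻¹ ∈ q.ker := by
    rw [MonoidHom.mem_ker, map_mul, map_inv, mul_inv_eq_one, map_pow]
    exact hn'.symm
  rw [hker, MonoidHom.mem_ker, map_mul, map_inv, mul_inv_eq_one, map_pow] at h1
  exact h1

end

/-- a set which is stable under right translation by an open subgroup is open -/
lemma isOpen_of_right {A : Set GQ} {N : Subgroup GQ} (hN : IsOpen (N : Set GQ))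
    (h : ∀ a ∈ A, ∀ n ∈ N, a * n ∈ A) : IsOpen A := by
  rw [isOpen_iff_mem_nhds]
  intro a ha
  have h1 : IsOpen ((fun x => a⁻¹ * x) ⁻¹' (N : Set GQ)) :=
    hN.preimage (continuous_const.mul continuous_id)
  refine Filter.mem_of_superset (h1.mem_nhds (by simp [N.one_mem])) ?_
  intro x hx
  have := h a ha (a⁻¹ * x) hx
  rwa [mul_inv_cancel_left] at this

lemma isClosed_of_right {A : Set GQ} {N : Subgroup GQ} (hN : IsOpen (N : Set GQ))
    (h : ∀ a ∈ A, ∀ n ∈ N, a * n ∈ A) : IsClosed A := by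
  rw [← isOpen_compl_iff]
  refine isOpen_of_right hN fun a ha n hn h1 => ha ?_
  have := h _ h1 n⁻¹ (N.inv_mem hn)
  rwa [mul_inv_cancel_right] at this

lemma isClosed_inP (P : Ideal (𝓞 Qb)) : IsClosed (inP P : Set GQ) := by
  have := algQb
  have e : (inP P : Set GQ) = ⋂ x : 𝓞 Qb, {g : GQ | g • x - x ∈ P} := by
    ext g
    simp only [Set.mem_iInter, Set.mem_ofPred_eq]
    exact Iff.rfl
  rw [e]
  refine isClosed_iInter fun x => ?_
  have h1 : IsOpen ((MulAction.stabilizer GQ (x : Qb) : Subgroup GQ) : Set GQ) :=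
    stabilizer_isOpen_of_isIntegral (x : Qb)
  refine isClosed_of_right h1 fun g hg n hn => ?_
  have hn' : n • x = x := RingOfIntegers.ext (MulAction.mem_stabilizer_iff.1 hn)
  change (g * n) • x - x ∈ P
  rw [mul_smul, hn']
  exact hg

/-- the open normal subgroups of `G_ℚ` whose quotient is a 2-group -/
def Two (N : Subgroup GQ) : Prop :=
  N.Normal ∧ IsOpen (N : Set GQ) ∧ ∀ g : GQ, ∃ k : ℕ, g ^ (2 ^ k) ∈ N

lemma Two.inf {M N : Subgroup GQ} (hM : Two M) (hN : Two N) : Two (M ⊓ N) := by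
  have := hM.1
  have := hN.1
  refine ⟨inferInstance, hM.2.1.inter hN.2.1, fun g => ?_⟩
  obtain ⟨k, hk⟩ := hM.2.2 g
  obtain ⟨l, hl⟩ := hN.2.2 g
  refine ⟨k + l, ?_, ?_⟩
  · rw [pow_add, pow_mul]; exact M.pow_mem hk _
  · rw [pow_add, mul_comm, pow_mul]; exact N.pow_mem hl _

/-- **one generator of tame inertia** for all 2-group quotients of `G_ℚ` -/
theorem exists_gen {ℓ : ℕ} (hℓ : ℓ.Prime) (hℓ2 : ℓ ≠ 2) {P : Ideal (𝓞 Qb)} (hP : P.IsPrime)
    (hPℓ : (ℓ : 𝓞 Qb) ∈ P) :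
    ∃ τ ∈ inP P, ∀ N : Subgroup GQ, Two N → ∀ g ∈ inP P, ∃ n : ℕ, g⁻¹ * τ ^ n ∈ N := by
  have := galQb
  let C : {N : Subgroup GQ // Two N} → Set GQ := fun N =>
    {τ | τ ∈ inP P ∧ ∀ g ∈ inP P, ∃ n : ℕ, g⁻¹ * τ ^ n ∈ N.1}
  have hcl : ∀ N, IsClosed (C N) := by
    intro N
    have hn := N.2.1
    have e : C N = (inP P : Set GQ) ∩ {τ | ∀ g ∈ inP P, ∃ n : ℕ, g⁻¹ * τ ^ n ∈ N.1} := rfl
    rw [e]
    refine (isClosed_inP P).inter (isClosed_of_right N.2.2.1 fun τ hτ n hn' g hg => ?_)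
    obtain ⟨m, hm⟩ := hτ g hg
    refine ⟨m, ?_⟩
    have h1 : (QuotientGroup.mk' N.1) (g⁻¹ * (τ * n) ^ m) = 1 := by
      have h2 : (QuotientGroup.mk' N.1) n = 1 := (QuotientGroup.eq_one_iff n).2 hn'
      rw [map_mul, map_pow, map_mul, h2, mul_one, ← map_pow, ← map_mul]
      exact (QuotientGroup.eq_one_iff _).2 hm
    exact (QuotientGroup.eq_one_iff _).1 h1
  have hne : ∀ N, (C N).Nonempty := by
    intro N
    have hn := N.2.1
    have hker : (QuotientGroup.mk' N.1).ker = N.1 := QuotientGroup.ker_mk' N.1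
    obtain ⟨τ, hτ, h⟩ := tame_cyclic (f := QuotientGroup.mk' N.1)
      (by rw [hker]; exact N.2.2.1)
      (fun g => by
        obtain ⟨k, hk⟩ := N.2.2.2 g
        exact ⟨k, by rw [← map_pow]; exact (QuotientGroup.eq_one_iff _).2 hk⟩) hℓ hℓ2 hP hPℓ
    refine ⟨τ, hτ, fun g hg => ?_⟩
    obtain ⟨n, hn⟩ := h g hg
    refine ⟨n, (QuotientGroup.eq_one_iff _).1 ?_⟩
    change (QuotientGroup.mk' N.1) (g⁻¹ * τ ^ n) = 1
    rw [map_mul, map_inv, map_pow, hn, inv_mul_cancel]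
  have hdir : Directed (fun s t : Set GQ => s ⊇ t) C := by
    intro M N
    refine ⟨⟨M.1 ⊓ N.1, M.2.inf N.2⟩, ?_, ?_⟩
    · rintro τ ⟨h1, h2⟩
      exact ⟨h1, fun g hg => (h2 g hg).imp fun n hn => hn.1⟩
    · rintro τ ⟨h1, h2⟩
      exact ⟨h1, fun g hg => (h2 g hg).imp fun n hn => hn.2⟩
  have hnon : Nonempty {N : Subgroup GQ // Two N} :=
    ⟨⟨⊤, ⟨inferInstance, isOpen_univ, fun g => ⟨0, trivial⟩⟩⟩⟩
  obtain ⟨τ, hτ⟩ := IsCompact.nonempty_iInter_of_directed_nonempty_isCompact_isClosed C hdir hne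
    (fun N => (hcl N).isCompact) hcl
  rw [Set.mem_iInter] at hτ
  exact ⟨τ, (hτ (Classical.choice hnon)).1, fun N hN => (hτ ⟨N, hN⟩).2⟩

/-- in the form used for representations: `f : G_ℚ → H` with open kernel and 2-power orders -/
theorem exists_gen' {ℓ : ℕ} (hℓ : ℓ.Prime) (hℓ2 : ℓ ≠ 2) {P : Ideal (𝓞 Qb)} (hP : P.IsPrime)
    (hPℓ : (ℓ : 𝓞 Qb) ∈ P) :
    ∃ τ : GQ, (∀ x : 𝓞 Qb, τ • x - x ∈ P) ∧
      ∀ (H : Type) [Group H] (f : GQ →* H), IsOpen (f.ker : Set GQ) →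
        (∀ g, ∃ k : ℕ, f g ^ (2 ^ k) = 1) →
        ∀ g : GQ, (∀ x : 𝓞 Qb, g • x - x ∈ P) → ∃ n : ℕ, f g = f τ ^ n := by
  obtain ⟨τ, hτ, h⟩ := exists_gen hℓ hℓ2 hP hPℓ
  refine ⟨τ, hτ, fun H _ f hf h2 g hg => ?_⟩
  obtain ⟨n, hn⟩ := h f.ker ⟨inferInstance, hf, fun g => by
    obtain ⟨k, hk⟩ := h2 g
    exact ⟨k, by rw [MonoidHom.mem_ker, map_pow]; exact hk⟩⟩ g hg
  refine ⟨n, ?_⟩
  rw [MonoidHom.mem_ker, map_mul, map_inv, map_pow, inv_mul_eq_one] at hn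
  exact hn

end Vale.Agent.P022.H443
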