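import Mathlib

/-!
# Tame inertia in 2-groups (finite level)

A finite (2-)group `G` acts faithfully on a Dedekind domain `R`, `P ≠ 0` is a prime with `2 ∉ P`.
The elements of the inertia group of `P` are detected by their action on `P / P²`.
-/

set_option linter.unusedSectionVars false

namespace Vale.Agent.P022.H443

open Ideal

section

variable {R : Type*} [CommRing R] [IsDedekindDomain R]
  {G : Type*} [Group G] [MulSemiringAction G R]

/-- inertia group -/
def InI (P : Ideal R) (g : G) : Prop := ∀ x : R, g • x - x ∈ P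

/-- an inertia element that acts trivially on `P / P²` -/
def InI1 (P : Ideal R) (g : G) : Prop := InI P g ∧ ∀ x ∈ P, g • x - x ∈ P ^ 2

lemma InI.smul_mem {P : Ideal R} {g : G} (h : InI P g) {x : R} (hx : x ∈ P) : g • x ∈ P := by
  have := P.add_mem (h x) hx
  simpa using this

lemma InI.mul {P : Ideal R} {g h : G} (hg : InI P g) (hh : InI P h) : InI P (g * h) := by
  intro x
  have := P.add_mem (hg (h • x)) (hh x)
  rw [mul_smul]
  simpa using this

lemma InI.one {P : Ideal R} : InI P (1 : G) := by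
  intro x; simp

lemma InI.pow {P : Ideal R} {g : G} (hg : InI P g) (n : ℕ) : InI P (g ^ n) := by
  induction n with
  | zero => simpa using InI.one
  | succ n ih => rw [pow_succ]; exact ih.mul hg

/-- the action on `P^n` -/
lemma smul_mem_pow {P : Ideal R} {g : G} (h : ∀ x ∈ P, g • x ∈ P) (n : ℕ) {x : R}
    (hx : x ∈ P ^ n) : g • x ∈ P ^ n := by
  have : P.map (MulSemiringAction.toRingHom G R g) ≤ P := by
    rw [Ideal.map_le_iff_le_comap]
    intro y hy
    exact h y hy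
  have h2 : (P ^ n).map (MulSemiringAction.toRingHom G R g) ≤ P ^ n := by
    rw [Ideal.map_pow]
    exact Ideal.pow_right_mono this n
  exact h2 (Ideal.mem_map_of_mem _ hx)

/-- an `InI1` element acts trivially on `P^n / P^(n+1)` -/
lemma InI1.sub_mem {P : Ideal R} {g : G} (h : InI1 P g) (n : ℕ) {x : R} (hx : x ∈ P ^ n) :
    g • x - x ∈ P ^ (n + 1) := by
  induction n generalizing x with
  | zero => simpa using h.1 x
  | succ n ih =>
    rw [pow_succ] at hx
    refine Submodule.mul_induction_on hx ?_ ?_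
    · intro a ha b hb
      have e : g • (a * b) - a * b = (g • a - a) * (g • b) + a * (g • b - b) := by
        rw [smul_mul']; ring
      rw [e]
      refine Ideal.add_mem _ ?_ ?_
      · rw [pow_succ]
        exact Ideal.mul_mem_mul (ih ha) (h.1.smul_mem hb)
      · have := Ideal.mul_mem_mul ha (h.2 b hb)
        rwa [← pow_add] at this
    · intro a b ha hb
      have e : g • (a + b) - (a + b) = (g • a - a) + (g • b - b) := by
        rw [smul_add]; ring
      rw [e]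
      exact Ideal.add_mem _ ha hb

lemma mem_pow_of_two_mul {P : Ideal R} [hP : P.IsPrime] (h2 : (2 : R) ∉ P) (n : ℕ) {y : R}
    (h : 2 * y ∈ P ^ n) : y ∈ P ^ n :=
  (Ideal.IsPrime.mul_mem_pow P h).resolve_left h2

/-- an involution that acts trivially on all `P^n / P^(n+1)` is trivial -/
lemma eq_one_of_sq [FaithfulSMul G R] {P : Ideal R} [hP : P.IsPrime] (hP0 : P ≠ ⊥)
    (h2 : (2 : R) ∉ P) {g : G} (h : InI1 P g) (hg : g * g = 1) : g = 1 := by
  have key : ∀ n : ℕ, ∀ x : R, g • x - x ∈ P ^ n := by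
    intro n
    induction n with
    | zero => intro x; simp
    | succ n ih =>
      intro x
      have h1 := h.sub_mem n (ih x)
      have e : g • (g • x - x) - (g • x - x) = - (2 * (g • x - x)) := by
        rw [smul_sub, ← mul_smul, hg, one_smul]; ring
      rw [e, neg_mem_iff] at h1
      exact mem_pow_of_two_mul h2 (n + 1) h1
  have hI : (⨅ n : ℕ, P ^ n) = ⊥ := Ideal.iInf_pow_eq_bot_of_isDomain P hP.ne_top
  apply FaithfulSMul.eq_of_smul_eq_smul (α := R)
  intro x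
  have : g • x - x ∈ (⨅ n : ℕ, P ^ n) := by
    rw [Ideal.mem_iInf]
    exact fun n => key n x
  rw [hI, Ideal.mem_bot, sub_eq_zero] at this
  rw [this, one_smul]

lemma InI1.mul {P : Ideal R} {g h : G} (hg : InI1 P g) (hh : InI1 P h) : InI1 P (g * h) := by
  refine ⟨hg.1.mul hh.1, fun x hx => ?_⟩
  have := (P ^ 2).add_mem (hg.2 (h • x) (hh.1.smul_mem hx)) (hh.2 x hx)
  rw [mul_smul]
  simpa using this

lemma InI1.pow {P : Ideal R} {g : G} (hg : InI1 P g) (n : ℕ) : InI1 P (g ^ n) := by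
  induction n with
  | zero => refine ⟨by simpa using InI.one, fun x _ => by simp⟩
  | succ n ih => rw [pow_succ]; exact ih.mul hg

/-- **an element of 2-power order of the inertia group that acts trivially on `P / P²` is trivial** -/
theorem eq_one_of_pow [FaithfulSMul G R] {P : Ideal R} [hP : P.IsPrime] (hP0 : P ≠ ⊥)
    (h2 : (2 : R) ∉ P) {g : G} (h : InI1 P g) (k : ℕ) (hg : g ^ (2 ^ k) = 1) : g = 1 := by
  induction k generalizing g with
  | zero => simpa using hg
  | succ k ih =>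
    have h1 : g ^ 2 ^ k * g ^ 2 ^ k = 1 := by
      rw [← pow_add, ← two_mul, ← pow_succ']; exact hg
    exact ih h (eq_one_of_sq hP0 h2 (h.pow _) h1)

/-- the scalar by which an inertia element acts on `P/P²` -/
lemma exists_scalar {P : Ideal R} [hP : P.IsPrime] (hP0 : P ≠ ⊥) {g : G} (h : InI P g) :
    ∃ u : R, ∀ x ∈ P, g • x - u * x ∈ P ^ 2 := by
  have hm : P.IsMaximal := hP.isMaximal hP0
  obtain ⟨π, hπ, hπ2⟩ := Ideal.exists_mem_pow_notMem_pow_succ P hP0 hP.ne_top 1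
  rw [pow_one] at hπ
  have hspan : P ≤ Ideal.span {π} ⊔ P ^ 2 := by
    intro x hx
    obtain ⟨d, e, he, rfl⟩ := Ideal.exists_mul_add_mem_pow_succ hP0 π x
      (by simpa using hπ) hπ2 (by simpa using hx)
    refine Ideal.add_mem _ ?_ ?_
    · exact Ideal.mem_sup_left (Ideal.mem_span_singleton'.2 ⟨d, by ring⟩)
    · exact Ideal.mem_sup_right he
  have hgπ : g • π ∈ Ideal.span {π} ⊔ P ^ 2 := hspan (h.smul_mem hπ)
  obtain ⟨a, ha, z, hz, haz⟩ := Submodule.mem_sup.1 hgπ
  obtain ⟨u, rfl⟩ := Ideal.mem_span_singleton'.1 ha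
  refine ⟨u, fun x hx => ?_⟩
  obtain ⟨b, hb, w, hw, hbw⟩ := Submodule.mem_sup.1 (hspan hx)
  obtain ⟨r, rfl⟩ := Ideal.mem_span_singleton'.1 hb
  rw [← hbw, smul_add, smul_mul', ← haz]
  have hgw : g • w ∈ P ^ 2 := smul_mem_pow (fun y hy => h.smul_mem hy) 2 hw
  have e : g • r * (u * π + z) + g • w - u * (r * π + w)
      = (g • r - r) * (u * π) + (g • r) * z + g • w - u * w := by ring
  rw [e]
  have h1 : (g • r - r) * (u * π) ∈ P ^ 2 := by
    rw [pow_two]
    exact Ideal.mul_mem_mul (h r) (Ideal.mul_mem_left _ _ hπ)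
  exact Ideal.sub_mem _ (Ideal.add_mem _ (Ideal.add_mem _ h1 (Ideal.mul_mem_left _ _ hz)) hgw)
    (Ideal.mul_mem_left _ _ hw)

lemma InI.inv {P : Ideal R} {g : G} (hg : InI P g) : InI P g⁻¹ := by
  intro x
  have h := hg (g⁻¹ • x)
  rw [smul_inv_smul, ← neg_mem_iff, neg_sub] at h
  exact h

lemma scalar_unique {P : Ideal R} [hP : P.IsPrime] (hP0 : P ≠ ⊥) {g : G} {u v : R}
    (hu : ∀ x ∈ P, g • x - u * x ∈ P ^ 2) (hv : ∀ x ∈ P, g • x - v * x ∈ P ^ 2) : u - v ∈ P := by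
  obtain ⟨π, hπ, hπ2⟩ := Ideal.exists_mem_pow_notMem_pow_succ P hP0 hP.ne_top 1
  rw [pow_one] at hπ
  have h := Ideal.sub_mem _ (hv π hπ) (hu π hπ)
  have e : g • π - v * π - (g • π - u * π) = (u - v) * π := by ring
  rw [e] at h
  exact (Ideal.IsPrime.mul_mem_pow P h).resolve_right hπ2

lemma scalar_mul {P : Ideal R} {g h : G} (hg : InI P g) (hh : InI P h) {u v : R}
    (hu : ∀ x ∈ P, g • x - u * x ∈ P ^ 2) (hv : ∀ x ∈ P, h • x - v * x ∈ P ^ 2) :
    ∀ x ∈ P, (g * h) • x - (u * v) * x ∈ P ^ 2 := by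
  intro x hx
  have e : (g * h) • x - (u * v) * x
      = g • (h • x - v * x) + (g • v - v) * (g • x) + v * (g • x - u * x) := by
    rw [mul_smul, smul_sub, smul_mul']; ring
  rw [e]
  have h1 : g • (h • x - v * x) ∈ P ^ 2 :=
    smul_mem_pow (fun y hy => hg.smul_mem hy) 2 (hv x hx)
  have h2 : (g • v - v) * (g • x) ∈ P ^ 2 := by
    rw [pow_two]; exact Ideal.mul_mem_mul (hg v) (hg.smul_mem hx)
  exact Ideal.add_mem _ (Ideal.add_mem _ h1 h2) (Ideal.mul_mem_left _ _ (hu x hx))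

lemma scalar_pow {P : Ideal R} {g : G} (hg : InI P g) {u : R}
    (hu : ∀ x ∈ P, g • x - u * x ∈ P ^ 2) (n : ℕ) :
    ∀ x ∈ P, (g ^ n) • x - u ^ n * x ∈ P ^ 2 := by
  induction n with
  | zero => intro x _; simp
  | succ n ih => rw [pow_succ g, pow_succ u]; exact scalar_mul (hg.pow n) hg ih hu

/-- **the tame relation**: in a 2-group, `σ τ = τ^ℓ σ` for `σ` a Frobenius element and `τ` in the
inertia group of `P` -/
theorem tame_rel [FaithfulSMul G R] (h2G : ∀ g : G, ∃ k : ℕ, g ^ (2 ^ k) = 1)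
    {P : Ideal R} [hP : P.IsPrime] (hP0 : P ≠ ⊥) (h2 : (2 : R) ∉ P) {ℓ : ℕ} (hℓ : ℓ ≠ 0) {σ τ : G}
    (hσ : ∀ x : R, σ • x - x ^ ℓ ∈ P) (hτ : InI P τ) : σ * τ = τ ^ ℓ * σ := by
  obtain ⟨u, hu⟩ := exists_scalar hP0 hτ
  have hσP : ∀ x ∈ P, σ • x ∈ P := by
    intro x hx
    have := P.add_mem (hσ x) (Ideal.pow_mem_of_mem P hx ℓ (Nat.pos_of_ne_zero hℓ))
    simpa using this
  have hσP' : ∀ x ∈ P, σ⁻¹ • x ∈ P := by
    intro x hx
    have h := hσ (σ⁻¹ • x)
    rw [smul_inv_smul] at h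
    have h' := P.sub_mem hx h
    rw [sub_sub_cancel] at h'
    exact hP.mem_of_pow_mem ℓ h'
  -- the main congruence
  have main : ∀ x ∈ P, (σ * τ * σ⁻¹) • x - (τ ^ ℓ) • x ∈ P ^ 2 := by
    intro x hx
    have hy := hσP' x hx
    have h1 : σ • (τ • (σ⁻¹ • x) - u * (σ⁻¹ • x)) ∈ P ^ 2 := smul_mem_pow hσP 2 (hu _ hy)
    have e1 : σ • (τ • (σ⁻¹ • x) - u * (σ⁻¹ • x)) = (σ * τ * σ⁻¹) • x - (σ • u) * x := by
      rw [smul_sub, smul_mul', smul_inv_smul, mul_smul, mul_smul]
    rw [e1] at h1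
    have h3 : (σ • u - u ^ ℓ) * x ∈ P ^ 2 := by
      rw [pow_two]; exact Ideal.mul_mem_mul (hσ u) hx
    have h4 := scalar_pow hτ hu ℓ x hx
    have e : (σ * τ * σ⁻¹) • x - (τ ^ ℓ) • x
        = ((σ * τ * σ⁻¹) • x - (σ • u) * x) + (σ • u - u ^ ℓ) * x
          - ((τ ^ ℓ) • x - u ^ ℓ * x) := by ring
    rw [e]
    exact Ideal.sub_mem _ (Ideal.add_mem _ h1 h3) h4
  have hconj : InI P (σ * τ * σ⁻¹) := by
    intro x
    have h := hσP _ (hτ (σ⁻¹ • x))
    rw [smul_sub, smul_inv_smul] at h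
    rwa [mul_smul, mul_smul]
  have hpi : InI P ((τ ^ ℓ)⁻¹) := (hτ.pow ℓ).inv
  have hg1 : InI1 P (σ * τ * σ⁻¹ * (τ ^ ℓ)⁻¹) := by
    refine ⟨hconj.mul hpi, fun x hx => ?_⟩
    have h := main ((τ ^ ℓ)⁻¹ • x) (hpi.smul_mem hx)
    rwa [smul_inv_smul, ← mul_smul] at h
  obtain ⟨k, hk⟩ := h2G (σ * τ * σ⁻¹ * (τ ^ ℓ)⁻¹)
  have h := eq_one_of_pow hP0 h2 hg1 k hk
  rw [mul_inv_eq_one, mul_inv_eq_iff_eq_mul] at h
  exact h

/-- the inertia group -/
def inert (P : Ideal R) : Subgroup G where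
  carrier := {g | InI P g}
  mul_mem' hg hh := hg.mul hh
  one_mem' := InI.one
  inv_mem' hg := hg.inv

/-- **tame inertia is cyclic** -/
theorem inert_cyclic [FaithfulSMul G R] [Finite G] (h2G : ∀ g : G, ∃ k : ℕ, g ^ (2 ^ k) = 1)
    {P : Ideal R} [hP : P.IsPrime] (hP0 : P ≠ ⊥) (h2 : (2 : R) ∉ P) :
    IsCyclic (inert P : Subgroup G) := by
  classical
  have hex : ∀ g : (inert P : Subgroup G), ∃ u : R, ∀ x ∈ P, (g : G) • x - u * x ∈ P ^ 2 :=
    fun g => exists_scalar hP0 g.2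
  choose u hu using hex
  let f : (inert P : Subgroup G) →* R ⧸ P :=
    { toFun := fun g => Ideal.Quotient.mk P (u g)
      map_one' := by
        rw [← map_one (Ideal.Quotient.mk P), Ideal.Quotient.eq]
        refine scalar_unique hP0 (g := (1 : G)) (hu 1) ?_
        intro x _; simp
      map_mul' := by
        intro g h
        rw [← map_mul, Ideal.Quotient.eq]
        exact scalar_unique hP0 (hu (g * h)) (scalar_mul g.2 h.2 (hu g) (hu h)) }
  have _inst : IsDomain (R ⧸ P) := Ideal.Quotient.isDomain P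
  refine isCyclic_of_injective_ringHom f ?_
  rw [injective_iff_map_eq_one]
  intro g hg
  have h1 : u g - 1 ∈ P := by
    rw [← Ideal.Quotient.eq, map_one]; exact hg
  have hg1 : InI1 P (g : G) := by
    refine ⟨g.2, fun x hx => ?_⟩
    have h3 : (u g - 1) * x ∈ P ^ 2 := by
      rw [pow_two]; exact Ideal.mul_mem_mul h1 hx
    have := Ideal.add_mem _ (hu g x hx) h3
    have e : (g : G) • x - u g * x + (u g - 1) * x = (g : G) • x - x := by ring
    rwa [e] at this
  obtain ⟨k, hk⟩ := h2G (g : G)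
  exact Subtype.ext (eq_one_of_pow hP0 h2 hg1 k hk)

end

end Vale.Agent.P022.H443
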